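import Vale.Agent.P313.BP.PhVal

/-!
Evaluation of `vq` and `phVal` at the individual phases.
-/

namespace Vale.Agent.P313.BP

open Finset

variable (p : Par2) (S : Sem) (T : TSem) (w : ℕ → ℕ) (d : SD) (o o' o'' : ℕ) (q : ℕ) (t : Tp)

theorem vq_data : vq p d phData q ↔ q1 q < 3 ∧ q2 q < p.n ∧ e3 q < p.n := by
  unfold vq
  rw [if_pos rfl]

theorem vq_PJ0 : vq p d phPJ0 q ↔
    q1 q ≤ p.lw ∧ q2 q < p.r ∧ q3 q < p.n ∧ q4 q < p.n := by
  unfold vq phPJ0 phData phHop phT0 phT1 phT2 phPJ2 phP0 phP2 phZ1 phZZ phLT phLJ phPr0 phPr2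
  rw [if_neg (by omega), if_neg (by omega), if_neg (by omega), if_pos (by omega)]

theorem vq_PJ2 : vq p d (phPJ2 p.JF) q ↔
    q1 q ≤ p.lw ∧ q2 q < p.r ∧ q3 q < p.n ∧ q4 q < p.n := by
  unfold vq phPJ0 phData phHop phT0 phT1 phT2 phPJ2 phP0 phP2 phZ1 phZZ phLT phLJ phPr0 phPr2
  rw [if_neg (by omega), if_neg (by omega), if_neg (by omega), if_pos (by omega)]

theorem vq_P0 : vq p d phP0 q ↔
    q1 q < p.r ∧ q2 q < p.n ∧ e3 q < p.n := by
  unfold vq phPJ0 phData phHop phT0 phT1 phT2 phPJ2 phP0 phP2 phZ1 phZZ phLT phLJ phPr0 phPr2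
  rw [if_neg (by omega), if_neg (by omega), if_neg (by omega), if_neg (by omega),
    if_pos (by omega)]

theorem vq_P2 : vq p d (phP2 p.JF) q ↔
    q1 q < p.r ∧ q2 q < p.n ∧ e3 q < p.n := by
  unfold vq phPJ0 phData phHop phT0 phT1 phT2 phPJ2 phP0 phP2 phZ1 phZZ phLT phLJ phPr0 phPr2
  rw [if_neg (by omega), if_neg (by omega), if_neg (by omega), if_neg (by omega),
    if_pos (by omega)]

theorem vq_Z1 : vq p d (phZ1 p.JF) q ↔
    q < p.n := by
  unfold vq phPJ0 phData phHop phT0 phT1 phT2 phPJ2 phP0 phP2 phZ1 phZZ phLT phLJ phPr0 phPr2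
  rw [if_neg (by omega), if_neg (by omega), if_neg (by omega), if_neg (by omega),
    if_neg (by omega), if_pos (by omega)]

theorem vq_ZZ : vq p d (phZZ p.JF) q ↔
    q < p.n := by
  unfold vq phPJ0 phData phHop phT0 phT1 phT2 phPJ2 phP0 phP2 phZ1 phZZ phLT phLJ phPr0 phPr2
  rw [if_neg (by omega), if_neg (by omega), if_neg (by omega), if_neg (by omega),
    if_neg (by omega), if_pos (by omega)]

theorem vq_LJ : vq p d (phLJ p.JF) q ↔
    q1 q ≤ p.lw ∧ e2 q < p.n := by
  unfold vq phPJ0 phData phHop phT0 phT1 phT2 phPJ2 phP0 phP2 phZ1 phZZ phLT phLJ phPr0 phPr2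
  rw [if_neg (by omega), if_neg (by omega), if_neg (by omega), if_neg (by omega),
    if_neg (by omega), if_neg (by omega), if_neg (by omega), if_pos (by omega)]

theorem vq_Pr0 (j : ℕ) (hj : j ≤ p.JF) : vq p d (phPr0 j) q ↔
    q1 q < 2 ^ (p.JF - j) ∧ q2 q < p.n ∧ e3 q < p.n := by
  unfold vq phPJ0 phData phHop phT0 phT1 phT2 phPJ2 phP0 phP2 phZ1 phZZ phLT phLJ phPr0 phPr2
  rw [if_neg (by omega), if_neg (by omega), if_neg (by omega), if_neg (by omega),
    if_neg (by omega), if_neg (by omega), if_neg (by omega), if_neg (by omega), if_pos (by omega)]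
  have : 5 + j - (5 + 0) = j := by omega
  rw [this]

theorem vq_Pr2 (j : ℕ) (hj : j ≤ p.JF) : vq p d (phPr2 p.JF j) q ↔
    q1 q < 2 ^ (p.JF - j) ∧ q2 q < p.n ∧ e3 q < p.n := by
  unfold vq phPJ0 phData phHop phT0 phT1 phT2 phPJ2 phP0 phP2 phZ1 phZZ phLT phLJ phPr0 phPr2
  rw [if_neg (by omega), if_neg (by omega), if_neg (by omega), if_neg (by omega),
    if_neg (by omega), if_neg (by omega), if_neg (by omega), if_neg (by omega),
    if_neg (by omega), if_pos (by omega)]
  have : 14 + p.JF + j - (14 + p.JF + 0) = j := by omega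
  rw [this]

theorem vq_G (j : ℕ) : vq p d (phG p.JF j) q ↔
    q1 q < p.n ∧ e2 q < p.n := by
  unfold vq phPJ0 phData phHop phT0 phT1 phT2 phPJ2 phP0 phP2 phZ1 phZZ phLT phLJ phPr0 phPr2 phG
  rw [if_neg (by omega), if_neg (by omega), if_neg (by omega), if_neg (by omega),
    if_neg (by omega), if_neg (by omega), if_neg (by omega), if_neg (by omega),
    if_neg (by omega), if_neg (by omega)]

theorem vq_H (j : ℕ) : vq p d (phH p.JF j) q ↔
    q1 q < p.n ∧ e2 q < p.n := by
  unfold vq phPJ0 phData phHop phT0 phT1 phT2 phPJ2 phP0 phP2 phZ1 phZZ phLT phLJ phPr0 phPr2 phH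
  rw [if_neg (by omega), if_neg (by omega), if_neg (by omega), if_neg (by omega),
    if_neg (by omega), if_neg (by omega), if_neg (by omega), if_neg (by omega),
    if_neg (by omega), if_neg (by omega)]

theorem vq_Phi : vq p d (phPhi p.JF p.JN) q ↔
    q1 q < p.n ∧ e2 q < p.n := by
  unfold vq phPJ0 phData phHop phT0 phT1 phT2 phPJ2 phP0 phP2 phZ1 phZZ phLT phLJ phPr0 phPr2 phPhi
  rw [if_neg (by omega), if_neg (by omega), if_neg (by omega), if_neg (by omega),
    if_neg (by omega), if_neg (by omega), if_neg (by omega), if_neg (by omega),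
    if_neg (by omega), if_neg (by omega)]

theorem phVal_data : phVal p S T w d o o' o'' phData q t =
    if q1 q = 0 then d.A (q2 q) (e3 q) else if q1 q = 1 then d.c (q2 q) else d.k (q2 q) := by
  unfold phVal
  rw [if_pos rfl]

theorem phVal_PJ0 : phVal p S T w d o o' o'' phPJ0 q t =
    avgV p T w d (fun _ => False) o (q1 q) (q2 q) (q3 q) (q4 q) t := by
  unfold phVal phPJ0 phData phHop phT0
  rw [if_neg (by omega), if_neg (by omega), if_neg (by omega), if_pos rfl]

theorem phVal_P0 : phVal p S T w d o o' o'' phP0 q t =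
    P0 p.toPar S d o (q1 q) (q2 q) (e3 q) := by
  unfold phVal phPJ0 phData phHop phT0 phP0
  rw [if_neg (by omega), if_neg (by omega), if_neg (by omega), if_neg (by omega), if_pos rfl]

theorem phVal_Pr0 (j : ℕ) (hj : j ≤ p.JF) : phVal p S T w d o o' o'' (phPr0 j) q t =
    prodM p.toPar (fac0 p.toPar S d o) j (q1 q) (q2 q) (e3 q) := by
  unfold phVal phPJ0 phData phHop phT0 phP0 phPr0 phZ1
  have : 5 + j - (5 + 0) = j := by omega
  rw [if_neg (by omega), if_neg (by omega), if_neg (by omega), if_neg (by omega),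
    if_neg (by omega), if_pos (by omega), this]

theorem phVal_Z1 : phVal p S T w d o o' o'' (phZ1 p.JF) q t =
    (open Classical in if Z1 p.toPar S d o q then 1 else 0) := by
  unfold phVal phPJ0 phData phHop phT0 phP0 phZ1
  rw [if_neg (by omega), if_neg (by omega), if_neg (by omega), if_neg (by omega),
    if_neg (by omega), if_neg (by omega), if_pos rfl]

theorem phVal_LJ : phVal p S T w d o o' o'' (phLJ p.JF) q t =
    avgL p T w d (Z1 p.toPar S d o) o' (q1 q) (e2 q) t := by
  unfold phVal phPJ0 phData phHop phT0 phP0 phZ1 phT1 phLT phLJ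
  rw [if_neg (by omega), if_neg (by omega), if_neg (by omega), if_neg (by omega),
    if_neg (by omega), if_neg (by omega), if_neg (by omega), if_neg (by omega),
    if_neg (by omega), if_pos rfl]

theorem phVal_ZZ : phVal p S T w d o o' o'' (phZZ p.JF) q t =
    (open Classical in (if Zst p.toPar S d o o' q then 1 else 0) +
      2 * (if Zs p.toPar S d o o' q then 1 else 0)) := by
  unfold phVal phPJ0 phData phHop phT0 phP0 phZ1 phT1 phLT phLJ phZZ
  rw [if_neg (by omega), if_neg (by omega), if_neg (by omega), if_neg (by omega),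
    if_neg (by omega), if_neg (by omega), if_neg (by omega), if_neg (by omega),
    if_neg (by omega), if_neg (by omega), if_pos rfl]

theorem phVal_PJ2 : phVal p S T w d o o' o'' (phPJ2 p.JF) q t =
    avgV p T w d (Zs p.toPar S d o o') o'' (q1 q) (q2 q) (q3 q) (q4 q) t := by
  unfold phVal phPJ0 phData phHop phT0 phP0 phZ1 phT1 phLT phLJ phZZ phT2 phPJ2
  rw [if_neg (by omega), if_neg (by omega), if_neg (by omega), if_neg (by omega),
    if_neg (by omega), if_neg (by omega), if_neg (by omega), if_neg (by omega),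
    if_neg (by omega), if_neg (by omega), if_neg (by omega), if_neg (by omega), if_pos rfl]

theorem phVal_P2 : phVal p S T w d o o' o'' (phP2 p.JF) q t =
    P2 p.toPar S d o o' o'' (q1 q) (q2 q) (e3 q) := by
  unfold phVal phPJ0 phData phHop phT0 phP0 phZ1 phT1 phLT phLJ phZZ phT2 phPJ2 phP2
  rw [if_neg (by omega), if_neg (by omega), if_neg (by omega), if_neg (by omega),
    if_neg (by omega), if_neg (by omega), if_neg (by omega), if_neg (by omega),
    if_neg (by omega), if_neg (by omega), if_neg (by omega), if_neg (by omega),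
    if_neg (by omega), if_pos rfl]

theorem phVal_Pr2 (j : ℕ) (hj : j ≤ p.JF) : phVal p S T w d o o' o'' (phPr2 p.JF j) q t =
    prodM p.toPar (fac2 p.toPar S d o o' o'') j (q1 q) (q2 q) (e3 q) := by
  unfold phVal phPJ0 phData phHop phT0 phP0 phZ1 phT1 phLT phLJ phZZ phT2 phPJ2 phP2 phPr2
  rw [if_neg (by omega), if_neg (by omega), if_neg (by omega), if_neg (by omega),
    if_neg (by omega), if_neg (by omega), if_neg (by omega), if_neg (by omega),
    if_neg (by omega), if_neg (by omega), if_neg (by omega), if_neg (by omega),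
    if_neg (by omega), if_neg (by omega), if_pos (by omega)]
  congr 1
  omega

theorem phVal_Phi : phVal p S T w d o o' o'' (phPhi p.JF p.JN) q t =
    (Phi p.toPar S d o o' o'' (q1 q) (e2 q) - 1).toNat := by
  unfold phVal phPJ0 phData phHop phT0 phP0 phZ1 phT1 phLT phLJ phZZ phT2 phPJ2 phP2 phPr2 phPhi
  rw [if_neg (by omega), if_neg (by omega), if_neg (by omega), if_neg (by omega),
    if_neg (by omega), if_neg (by omega), if_neg (by omega), if_neg (by omega),
    if_neg (by omega), if_neg (by omega), if_neg (by omega), if_neg (by omega),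
    if_neg (by omega), if_neg (by omega), if_neg (by omega), if_pos rfl]

theorem phVal_G (j : ℕ) (_hj : j ≤ p.JN) : phVal p S T w d o o' o'' (phG p.JF j) q t =
    (Gz p.toPar S d o o' o'' j (q1 q) (e2 q) + p.Om).toNat := by
  unfold phVal phPJ0 phData phHop phT0 phP0 phZ1 phT1 phLT phLJ phZZ phT2 phPJ2 phP2 phPr2 phPhi
    phG
  rw [if_neg (by omega), if_neg (by omega), if_neg (by omega), if_neg (by omega),
    if_neg (by omega), if_neg (by omega), if_neg (by omega), if_neg (by omega),
    if_neg (by omega), if_neg (by omega), if_neg (by omega), if_neg (by omega),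
    if_neg (by omega), if_neg (by omega), if_neg (by omega), if_neg (by omega),
    if_pos (by omega)]
  have : (15 + 2 * p.JF + 2 * j - (15 + 2 * p.JF + 2 * 0)) / 2 = j := by omega
  rw [this]

theorem phVal_H (j : ℕ) (hj : j < p.JN) : phVal p S T w d o o' o'' (phH p.JF j) q t =
    (Hn p.toPar (Lm p.toPar S d o o') (Gz p.toPar S d o o' o'' j) (q1 q) (e2 q) +
      p.Om).toNat := by
  unfold phVal phPJ0 phData phHop phT0 phP0 phZ1 phT1 phLT phLJ phZZ phT2 phPJ2 phP2 phPr2 phPhi
    phG phH
  rw [if_neg (by omega), if_neg (by omega), if_neg (by omega), if_neg (by omega),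
    if_neg (by omega), if_neg (by omega), if_neg (by omega), if_neg (by omega),
    if_neg (by omega), if_neg (by omega), if_neg (by omega), if_neg (by omega),
    if_neg (by omega), if_neg (by omega), if_neg (by omega), if_neg (by omega),
    if_neg (by omega)]
  have : (16 + 2 * p.JF + 2 * j - (15 + 2 * p.JF + 2 * 0)) / 2 = j := by omega
  rw [this]

end Vale.Agent.P313.BP
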