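import Vale.Agent.P313.H285.LFx
import Vale.Agent.P313.CT.Lib
import Vale.Agent.P313.BP.Lay

set_option linter.all false

/-!
The phases DATA, PROD, Z1, ZZ, MAJORITY, G, H, Phi as functions in `TS.LF` of the level `l` and the
query `q`, which ask the lower levels.
-/

namespace Vale.Agent.P313.TS.F3

open Finset TS BP
open Vale.Agent.P313.CT (ask stat bnd)

/-- Power, cut above the bound. -/
def pw (I : Inp) (u e : ℕ) : ℕ := min (u ^ e) (bnd I + 1)

variable {k : ℕ}

theorem LFst {f : Fn k} (hf : LF f) : LF (fun x a => stat x (f x a)) := CT.lf_stat hf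

theorem LFask {f g : Fn k} (hf : LF f) (hg : LF g) : LF (fun x a => ask x (f x a) (g x a)) :=
  CT.lf_ask hf hg

theorem LFpw {f g : Fn k} (hf : LF f) (hg : LF g) : LF (fun x a => pw x (f x a) (g x a)) :=
  LF.powMin hf hg CT.lf_bnd

/-- first component of the query -/
def u1 (q : ℕ) : ℕ := (Nat.unpair q).1
/-- second component of the query -/
def u2 (q : ℕ) : ℕ := (Nat.unpair q).2

@[simp] theorem u1_pair (a b : ℕ) : u1 (Nat.pair a b) = a := by simp [u1]
@[simp] theorem u2_pair (a b : ℕ) : u2 (Nat.pair a b) = b := by simp [u2]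

theorem LFu1 {f : Fn k} (hf : LF f) : LF (fun x a => u1 (f x a)) := LF.unpair1 hf
theorem LFu2 {f : Fn k} (hf : LF f) : LF (fun x a => u2 (f x a)) := LF.unpair2 hf

/-- The first index below `n` whose value occurs more than `n / 2` times among
`f 0, ..., f (n - 1)`, or `n`. -/
noncomputable def majI (n : ℕ) (f : ℕ → ℕ) : ℕ :=
  leastBelow (fun i => n < 2 * ∑ j ∈ range n, (if f j = f i then 1 else 0)) n

/-- Base level of the stage: the level of phase `0`. -/
def bs (I : Inp) (l : ℕ) : ℕ := l - l % stat I 19

theorem LFbs {f : Fn k} (hf : LF f) : LF (fun x a => bs x (f x a)) := by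
  unfold bs
  repeat' with_reducible first
    | assumption | exact LF.const _ | exact LF.zero | exact LF.proj _ | exact LF.pt1 _
    | exact LF.pt2 _ | exact LF.pt3 _ | exact LF.pt4 _ | exact LF.pt5 _ | apply LFst
    | apply LF.succ | apply LF.add | apply LF.mul | apply LF.sub | apply LF.div | apply LF.mod
    | apply LF.min | apply LF.max | apply LF.pair | apply LF.unpair1 | apply LF.unpair2
    | apply LF.ora | apply LF.log2 | apply LF.powConst | apply LF.ite | apply LF.sumC
    | apply LF.leastC | apply LFP.and | apply LFP.or | apply LFP.allC | apply LFP.exC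
    | apply LFP.ne | apply LFP.not | apply LFP.eq | apply LFP.le | apply LFP.lt | apply LFP.ge
    | apply LFP.gt | exact LFP.tt | exact LFP.ff | exact LF.weak (by assumption)
    | exact LF.weak (LF.weak (by assumption))
    | exact LF.weak (LF.weak (LF.weak (by assumption)))
    | exact LF.weak (LF.weak (LF.weak (LF.weak (by assumption))))

/-! ### DATA -/

/-- DATA in the first stage. -/
def fInit (cs : Inp → ℕ → ℕ → ℕ) (I : Inp) (tag v x : ℕ) : ℕ :=
  if tag = 0 then
    (if v + 1 < stat I 0 then
      (if x + 1 < stat I 0 then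
        ((if cs I v 0 = x then 1 else 0) + (if cs I v 1 = x then 1 else 0)) *
          (pw I (stat I 1) (stat I 2) / 2)
      else pw I (stat I 1) (stat I 2) - 2 * (pw I (stat I 1) (stat I 2) / 2))
    else if x = v then pw I (stat I 1) (stat I 2) else 0)
  else if tag = 1 then stat I 2 else if v + 1 = stat I 0 then stat I 5 else 0

/-- DATA in the other stages. -/
def fNext (I : Inp) (l tag v x : ℕ) : ℕ :=
  if tag = 0 then
    (if x + 1 = stat I 0 then
      pw I (stat I 1) (stat I 2) - ∑ y ∈ range (stat I 0 - 1), ask I (l - 1) (Nat.pair v y)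
    else ask I (l - 1) (Nat.pair v x))
  else if tag = 1 then
    ask I (l - stat I 19) (Nat.pair 1 (Nat.pair v 0)) +
      (if ask I (l - stat I 19 + (10 + stat I 8)) v % 2 = 1 ∧
        ask I (l - stat I 19) (Nat.pair 2 (Nat.pair v 0)) < stat I 5 then 1 else 0)
  else
    ask I (l - stat I 19) (Nat.pair 2 (Nat.pair v 0)) +
      (if 2 ≤ ask I (l - stat I 19 + (10 + stat I 8)) v then 0 else 1)

/-- DATA. -/
def fData (cs : Inp → ℕ → ℕ → ℕ) (I : Inp) (l q : ℕ) : ℕ :=
  if l = 0 then fInit cs I (u1 q) (u1 (u2 q)) (u2 (u2 q))
  else fNext I l (u1 q) (u1 (u2 q)) (u2 (u2 q))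

theorem LFInit {cs : Inp → ℕ → ℕ → ℕ} (hcs : LF (fun x a => cs x (a 0) (a 1) : Fn 2))
    {f g h : Fn k} (hf : LF f) (hg : LF g) (hh : LF h) :
    LF (fun x a => fInit cs x (f x a) (g x a) (h x a)) := by
  unfold fInit
  repeat' with_reducible first
    | assumption | exact LF.const _ | exact LF.zero | exact LF.proj _ | exact LF.pt1 _
    | exact LF.pt2 _ | exact LF.pt3 _ | exact LF.pt4 _ | exact LF.pt5 _ | apply LFst
    | apply LFpw | apply LF.comp2 hcs | apply LF.succ | apply LF.add | apply LF.mul
    | apply LF.sub | apply LF.div | apply LF.mod | apply LF.min | apply LF.max | apply LF.pair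
    | apply LF.unpair1 | apply LF.unpair2 | apply LF.ora | apply LF.log2 | apply LF.powConst
    | apply LF.ite | apply LF.sumC | apply LF.leastC | apply LFP.and | apply LFP.or
    | apply LFP.allC | apply LFP.exC | apply LFP.ne | apply LFP.not | apply LFP.eq
    | apply LFP.le | apply LFP.lt | apply LFP.ge | apply LFP.gt | exact LFP.tt | exact LFP.ff
    | exact LF.weak (by assumption) | exact LF.weak (LF.weak (by assumption))
    | exact LF.weak (LF.weak (LF.weak (by assumption)))
    | exact LF.weak (LF.weak (LF.weak (LF.weak (by assumption))))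

theorem LFNext {f g h u : Fn k} (hf : LF f) (hg : LF g) (hh : LF h) (hu : LF u) :
    LF (fun x a => fNext x (f x a) (g x a) (h x a) (u x a)) := by
  unfold fNext
  repeat' with_reducible first
    | assumption | exact LF.const _ | exact LF.zero | exact LF.proj _ | exact LF.pt1 _
    | exact LF.pt2 _ | exact LF.pt3 _ | exact LF.pt4 _ | exact LF.pt5 _ | apply LFst
    | apply LFpw | apply LFask | apply LF.succ | apply LF.add | apply LF.mul | apply LF.sub
    | apply LF.div | apply LF.mod | apply LF.min | apply LF.max | apply LF.pair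
    | apply LF.unpair1 | apply LF.unpair2 | apply LF.ora | apply LF.log2 | apply LF.powConst
    | apply LF.ite | apply LF.sumC | apply LF.leastC | apply LFP.and | apply LFP.or
    | apply LFP.allC | apply LFP.exC | apply LFP.ne | apply LFP.not | apply LFP.eq
    | apply LFP.le | apply LFP.lt | apply LFP.ge | apply LFP.gt | exact LFP.tt | exact LFP.ff
    | exact LF.weak (by assumption) | exact LF.weak (LF.weak (by assumption))
    | exact LF.weak (LF.weak (LF.weak (by assumption)))
    | exact LF.weak (LF.weak (LF.weak (LF.weak (by assumption))))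

theorem LFData {cs : Inp → ℕ → ℕ → ℕ} (hcs : LF (fun x a => cs x (a 0) (a 1) : Fn 2)) :
    LF (fun x a => fData cs x (a 0) (a 1) : Fn 2) := by
  unfold fData
  repeat' with_reducible first
    | assumption | exact LF.const _ | exact LF.zero | exact LF.proj _ | exact LF.pt1 _
    | exact LF.pt2 _ | exact LF.pt3 _ | exact LF.pt4 _ | exact LF.pt5 _ | apply LFu1
    | apply LFu2 | apply LFInit hcs | apply LFNext | apply LF.succ | apply LF.add
    | apply LF.mul | apply LF.sub | apply LF.div | apply LF.mod | apply LF.min | apply LF.max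
    | apply LF.pair | apply LF.unpair1 | apply LF.unpair2 | apply LF.ora | apply LF.log2
    | apply LF.powConst | apply LF.ite | apply LF.sumC | apply LF.leastC | apply LFP.and
    | apply LFP.or | apply LFP.allC | apply LFP.exC | apply LFP.ne | apply LFP.not
    | apply LFP.eq | apply LFP.le | apply LFP.lt | apply LFP.ge | apply LFP.gt | exact LFP.tt
    | exact LFP.ff | exact LF.weak (by assumption) | exact LF.weak (LF.weak (by assumption))
    | exact LF.weak (LF.weak (LF.weak (by assumption)))
    | exact LF.weak (LF.weak (LF.weak (LF.weak (by assumption))))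

/-! ### MAJORITY -/

/-- Index of the majority; the previous level is the level of averages. -/
noncomputable def fMajI (I : Inp) (l q : ℕ) : ℕ :=
  majI (stat I 17 + 1) (fun j => ask I (l - 1) (Nat.pair j q))

/-- MAJORITY. -/
noncomputable def fMaj (I : Inp) (l q : ℕ) : ℕ :=
  if fMajI I l q < stat I 17 + 1 then ask I (l - 1) (Nat.pair (fMajI I l q) q) else 0

theorem LFMajI {f g : Fn k} (hf : LF f) (hg : LF g) :
    LF (fun x a => fMajI x (f x a) (g x a)) := by
  unfold fMajI majI
  repeat' with_reducible first
    | assumption | exact LF.const _ | exact LF.zero | exact LF.proj _ | exact LF.pt1 _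
    | exact LF.pt2 _ | exact LF.pt3 _ | exact LF.pt4 _ | exact LF.pt5 _ | apply LFst
    | apply LFask | apply LF.succ | apply LF.add | apply LF.mul | apply LF.sub | apply LF.div
    | apply LF.mod | apply LF.min | apply LF.max | apply LF.pair | apply LF.unpair1
    | apply LF.unpair2 | apply LF.ora | apply LF.log2 | apply LF.powConst | apply LF.ite
    | apply LF.sumC | apply LF.leastC | apply LFP.and | apply LFP.or | apply LFP.allC
    | apply LFP.exC | apply LFP.ne | apply LFP.not | apply LFP.eq | apply LFP.le | apply LFP.lt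
    | apply LFP.ge | apply LFP.gt | exact LFP.tt | exact LFP.ff | exact LF.weak (by assumption)
    | exact LF.weak (LF.weak (by assumption))
    | exact LF.weak (LF.weak (LF.weak (by assumption)))
    | exact LF.weak (LF.weak (LF.weak (LF.weak (by assumption))))

theorem LFMaj' {f g : Fn k} (hf : LF f) (hg : LF g) :
    LF (fun x a => fMaj x (f x a) (g x a)) := by
  unfold fMaj
  repeat' with_reducible first
    | assumption | exact LF.const _ | exact LF.zero | exact LF.proj _ | exact LF.pt1 _
    | exact LF.pt2 _ | exact LF.pt3 _ | exact LF.pt4 _ | exact LF.pt5 _ | apply LFst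
    | apply LFask | apply LFMajI | apply LF.succ | apply LF.add | apply LF.mul | apply LF.sub
    | apply LF.div | apply LF.mod | apply LF.min | apply LF.max | apply LF.pair
    | apply LF.unpair1 | apply LF.unpair2 | apply LF.ora | apply LF.log2 | apply LF.powConst
    | apply LF.ite | apply LF.sumC | apply LF.leastC | apply LFP.and | apply LFP.or
    | apply LFP.allC | apply LFP.exC | apply LFP.ne | apply LFP.not | apply LFP.eq
    | apply LFP.le | apply LFP.lt | apply LFP.ge | apply LFP.gt | exact LFP.tt | exact LFP.ff
    | exact LF.weak (by assumption) | exact LF.weak (LF.weak (by assumption))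
    | exact LF.weak (LF.weak (LF.weak (by assumption)))
    | exact LF.weak (LF.weak (LF.weak (LF.weak (by assumption))))

theorem LFMaj : LF (fun x a => fMaj x (a 0) (a 1) : Fn 2) := LFMaj' (LF.proj 0) (LF.proj 1)

/-! ### PRODUCTS -/

/-- Product of two fixed point matrices of the previous level. -/
def fMul (I : Inp) (l i v x : ℕ) : ℕ :=
  (∑ y ∈ range (stat I 0), ask I (l - 1) (Nat.pair (2 * i + 1) (Nat.pair v y)) *
    ask I (l - 1) (Nat.pair (2 * i) (Nat.pair y x))) / stat I 10 + 1

/-- Factors of kind `0`; the previous level is MAJORITY of kind `0`. -/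
def fFac0 (I : Inp) (l i v x : ℕ) : ℕ :=
  (if v = x then stat I 10 else 0) +
    (if i < stat I 3 then ask I (l - 1) (Nat.pair i (Nat.pair v x)) else 0)

/-- `kp i`. -/
def fKp (I : Inp) (i : ℕ) : ℕ :=
  (fun t => t ^ 2 / stat I 10)^[i] (stat I 10 - stat I 10 / pw I 2 (stat I 4))

/-- Factors of kind `2`; the previous level is MAJORITY of kind `2`. -/
def fFac2 (I : Inp) (l i v x : ℕ) : ℕ :=
  (if v = x then stat I 10 else 0) +
    (if i < stat I 3 then fKp I i * ask I (l - 1) (Nat.pair i (Nat.pair v x)) / stat I 10 else 0)

/-- PRODUCTS of kind `0`. -/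
def fPr0 (I : Inp) (l q : ℕ) : ℕ :=
  if l % stat I 19 = 5 then fFac0 I l (u1 q) (u1 (u2 q)) (u2 (u2 q))
  else fMul I l (u1 q) (u1 (u2 q)) (u2 (u2 q))

/-- PRODUCTS of kind `2`. -/
def fPr2 (I : Inp) (l q : ℕ) : ℕ :=
  if l % stat I 19 = 14 + stat I 8 then fFac2 I l (u1 q) (u1 (u2 q)) (u2 (u2 q))
  else fMul I l (u1 q) (u1 (u2 q)) (u2 (u2 q))

theorem LFMul {f g h u : Fn k} (hf : LF f) (hg : LF g) (hh : LF h) (hu : LF u) :
    LF (fun x a => fMul x (f x a) (g x a) (h x a) (u x a)) := by
  unfold fMul
  repeat' with_reducible first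
    | assumption | exact LF.const _ | exact LF.zero | exact LF.proj _ | exact LF.pt1 _
    | exact LF.pt2 _ | exact LF.pt3 _ | exact LF.pt4 _ | exact LF.pt5 _ | apply LFst
    | apply LFask | apply LF.succ | apply LF.add | apply LF.mul | apply LF.sub | apply LF.div
    | apply LF.mod | apply LF.min | apply LF.max | apply LF.pair | apply LF.unpair1
    | apply LF.unpair2 | apply LF.ora | apply LF.log2 | apply LF.powConst | apply LF.ite
    | apply LF.sumC | apply LF.leastC | apply LFP.and | apply LFP.or | apply LFP.allC
    | apply LFP.exC | apply LFP.ne | apply LFP.not | apply LFP.eq | apply LFP.le | apply LFP.lt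
    | apply LFP.ge | apply LFP.gt | exact LFP.tt | exact LFP.ff | exact LF.weak (by assumption)
    | exact LF.weak (LF.weak (by assumption))
    | exact LF.weak (LF.weak (LF.weak (by assumption)))
    | exact LF.weak (LF.weak (LF.weak (LF.weak (by assumption))))

theorem LFFac0 {f g h u : Fn k} (hf : LF f) (hg : LF g) (hh : LF h) (hu : LF u) :
    LF (fun x a => fFac0 x (f x a) (g x a) (h x a) (u x a)) := by
  unfold fFac0
  repeat' with_reducible first
    | assumption | exact LF.const _ | exact LF.zero | exact LF.proj _ | exact LF.pt1 _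
    | exact LF.pt2 _ | exact LF.pt3 _ | exact LF.pt4 _ | exact LF.pt5 _ | apply LFst
    | apply LFask | apply LF.succ | apply LF.add | apply LF.mul | apply LF.sub | apply LF.div
    | apply LF.mod | apply LF.min | apply LF.max | apply LF.pair | apply LF.unpair1
    | apply LF.unpair2 | apply LF.ora | apply LF.log2 | apply LF.powConst | apply LF.ite
    | apply LF.sumC | apply LF.leastC | apply LFP.and | apply LFP.or | apply LFP.allC
    | apply LFP.exC | apply LFP.ne | apply LFP.not | apply LFP.eq | apply LFP.le | apply LFP.lt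
    | apply LFP.ge | apply LFP.gt | exact LFP.tt | exact LFP.ff | exact LF.weak (by assumption)
    | exact LF.weak (LF.weak (by assumption))
    | exact LF.weak (LF.weak (LF.weak (by assumption)))
    | exact LF.weak (LF.weak (LF.weak (LF.weak (by assumption))))

theorem fKp_le (Th z i : ℕ) (hz : z ≤ Th) : (fun t => t ^ 2 / Th)^[i] z ≤ Th := by
  induction i with
  | zero => simpa using hz
  | succ i ih =>
    rw [Function.iterate_succ_apply']
    rcases Nat.eq_zero_or_pos Th with h | h
    · subst h; simp
    · calc (fun t => t ^ 2 / Th) ((fun t => t ^ 2 / Th)^[i] z) ≤ Th ^ 2 / Th :=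
          Nat.div_le_div_right (Nat.pow_le_pow_left ih 2)
        _ = Th := by rw [pow_two, Nat.mul_div_cancel _ h]

theorem LFKp {f : Fn k} (hf : LF f) : LF (fun x a => fKp x (f x a)) := by
  have h10 : LF (fun x _ => stat x 10 : Fn k) := LFst (LF.const 10)
  have h1 : LF (fun x b => (b 0) ^ 2 / stat x 10 : Fn (k + 1)) := by
    repeat' with_reducible first
      | assumption | exact LF.const _ | exact LF.zero | exact LF.proj _ | exact LF.pt1 _
      | exact LF.pt2 _ | exact LF.pt3 _ | exact LF.pt4 _ | exact LF.pt5 _ | apply LFst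
      | apply LF.succ | apply LF.add | apply LF.mul | apply LF.sub | apply LF.div
      | apply LF.mod | apply LF.min | apply LF.max | apply LF.pair | apply LF.unpair1
      | apply LF.unpair2 | apply LF.ora | apply LF.log2 | apply LF.powConst | apply LF.ite
      | apply LF.sumC | apply LF.leastC | apply LFP.and | apply LFP.or | apply LFP.allC
      | apply LFP.exC | apply LFP.ne | apply LFP.not | apply LFP.eq | apply LFP.le
      | apply LFP.lt | apply LFP.ge | apply LFP.gt | exact LFP.tt | exact LFP.ff
      | exact LF.weak (by assumption) | exact LF.weak (LF.weak (by assumption))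
      | exact LF.weak (LF.weak (LF.weak (by assumption)))
      | exact LF.weak (LF.weak (LF.weak (LF.weak (by assumption))))
  have h2 : LF (fun x _ => stat x 10 - stat x 10 / pw x 2 (stat x 4) : Fn k) := by
    repeat' with_reducible first
      | assumption | exact LF.const _ | exact LF.zero | exact LF.proj _ | exact LF.pt1 _
      | exact LF.pt2 _ | exact LF.pt3 _ | exact LF.pt4 _ | exact LF.pt5 _ | apply LFst
      | apply LFpw | apply LF.succ | apply LF.add | apply LF.mul | apply LF.sub | apply LF.div
      | apply LF.mod | apply LF.min | apply LF.max | apply LF.pair | apply LF.unpair1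
      | apply LF.unpair2 | apply LF.ora | apply LF.log2 | apply LF.powConst | apply LF.ite
      | apply LF.sumC | apply LF.leastC | apply LFP.and | apply LFP.or | apply LFP.allC
      | apply LFP.exC | apply LFP.ne | apply LFP.not | apply LFP.eq | apply LFP.le
      | apply LFP.lt | apply LFP.ge | apply LFP.gt | exact LFP.tt | exact LFP.ff
      | exact LF.weak (by assumption) | exact LF.weak (LF.weak (by assumption))
      | exact LF.weak (LF.weak (LF.weak (by assumption)))
      | exact LF.weak (LF.weak (LF.weak (LF.weak (by assumption))))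
  have h3 := LF.iterate (k := k) (f := fun x b => (b 0) ^ 2 / stat x 10)
    (g := fun x _ => stat x 10 - stat x 10 / pw x 2 (stat x 4)) (n := f)
    h1 h2 hf (fun x _ => stat x 10) h10.pb (fun x a i _ => fKp_le _ _ _ (Nat.sub_le _ _))
  exact h3.congr fun x a => rfl

theorem LFFac2 {f g h u : Fn k} (hf : LF f) (hg : LF g) (hh : LF h) (hu : LF u) :
    LF (fun x a => fFac2 x (f x a) (g x a) (h x a) (u x a)) := by
  unfold fFac2
  repeat' with_reducible first
    | assumption | exact LF.const _ | exact LF.zero | exact LF.proj _ | exact LF.pt1 _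
    | exact LF.pt2 _ | exact LF.pt3 _ | exact LF.pt4 _ | exact LF.pt5 _ | apply LFst
    | apply LFask | apply LFKp | apply LF.succ | apply LF.add | apply LF.mul | apply LF.sub
    | apply LF.div | apply LF.mod | apply LF.min | apply LF.max | apply LF.pair
    | apply LF.unpair1 | apply LF.unpair2 | apply LF.ora | apply LF.log2 | apply LF.powConst
    | apply LF.ite | apply LF.sumC | apply LF.leastC | apply LFP.and | apply LFP.or
    | apply LFP.allC | apply LFP.exC | apply LFP.ne | apply LFP.not | apply LFP.eq
    | apply LFP.le | apply LFP.lt | apply LFP.ge | apply LFP.gt | exact LFP.tt | exact LFP.ff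
    | exact LF.weak (by assumption) | exact LF.weak (LF.weak (by assumption))
    | exact LF.weak (LF.weak (LF.weak (by assumption)))
    | exact LF.weak (LF.weak (LF.weak (LF.weak (by assumption))))

theorem LFPr0 : LF (fun x a => fPr0 x (a 0) (a 1) : Fn 2) := by
  unfold fPr0
  repeat' with_reducible first
    | assumption | exact LF.const _ | exact LF.zero | exact LF.proj _ | exact LF.pt1 _
    | exact LF.pt2 _ | exact LF.pt3 _ | exact LF.pt4 _ | exact LF.pt5 _ | apply LFst
    | apply LFu1 | apply LFu2 | apply LFFac0 | apply LFMul | apply LF.succ | apply LF.add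
    | apply LF.mul | apply LF.sub | apply LF.div | apply LF.mod | apply LF.min | apply LF.max
    | apply LF.pair | apply LF.unpair1 | apply LF.unpair2 | apply LF.ora | apply LF.log2
    | apply LF.powConst | apply LF.ite | apply LF.sumC | apply LF.leastC | apply LFP.and
    | apply LFP.or | apply LFP.allC | apply LFP.exC | apply LFP.ne | apply LFP.not
    | apply LFP.eq | apply LFP.le | apply LFP.lt | apply LFP.ge | apply LFP.gt | exact LFP.tt
    | exact LFP.ff | exact LF.weak (by assumption) | exact LF.weak (LF.weak (by assumption))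
    | exact LF.weak (LF.weak (LF.weak (by assumption)))
    | exact LF.weak (LF.weak (LF.weak (LF.weak (by assumption))))

theorem LFPr2 : LF (fun x a => fPr2 x (a 0) (a 1) : Fn 2) := by
  unfold fPr2
  repeat' with_reducible first
    | assumption | exact LF.const _ | exact LF.zero | exact LF.proj _ | exact LF.pt1 _
    | exact LF.pt2 _ | exact LF.pt3 _ | exact LF.pt4 _ | exact LF.pt5 _ | apply LFst
    | apply LFu1 | apply LFu2 | apply LFFac2 | apply LFMul | apply LF.succ | apply LF.add
    | apply LF.mul | apply LF.sub | apply LF.div | apply LF.mod | apply LF.min | apply LF.max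
    | apply LF.pair | apply LF.unpair1 | apply LF.unpair2 | apply LF.ora | apply LF.log2
    | apply LF.powConst | apply LF.ite | apply LF.sumC | apply LF.leastC | apply LFP.and
    | apply LFP.or | apply LFP.allC | apply LFP.exC | apply LFP.ne | apply LFP.not
    | apply LFP.eq | apply LFP.le | apply LFP.lt | apply LFP.ge | apply LFP.gt | exact LFP.tt
    | exact LFP.ff | exact LF.weak (by assumption) | exact LF.weak (LF.weak (by assumption))
    | exact LF.weak (LF.weak (LF.weak (by assumption)))
    | exact LF.weak (LF.weak (LF.weak (LF.weak (by assumption))))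

/-! ### Z1 -/

/-- `q ^ (c v - b)`. -/
def fH (I : Inp) (l v : ℕ) : ℕ :=
  pw I (stat I 1) (ask I (bs I l) (Nat.pair 1 (Nat.pair v 0)) - stat I 2)

/-- Z1. -/
def fZ1 (I : Inp) (l x : ℕ) : ℕ :=
  if stat I 1 ^ 4 * pw I (stat I 1) (ask I (bs I l) (Nat.pair 1 (Nat.pair x 0))) ≤
      ∑ v ∈ range (stat I 0), fH I l v * ask I (bs I l) (Nat.pair 0 (Nat.pair v x)) ∨
    stat I 1 ^ 4 * fH I l x * stat I 10 ≤
      ∑ v ∈ range (stat I 0), fH I l v * ask I (l - 1) (Nat.pair 0 (Nat.pair v x)) then 1 else 0

theorem LFH {f g : Fn k} (hf : LF f) (hg : LF g) : LF (fun x a => fH x (f x a) (g x a)) := by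
  unfold fH
  repeat' with_reducible first
    | assumption | exact LF.const _ | exact LF.zero | exact LF.proj _ | exact LF.pt1 _
    | exact LF.pt2 _ | exact LF.pt3 _ | exact LF.pt4 _ | exact LF.pt5 _ | apply LFst
    | apply LFpw | apply LFask | apply LFbs | apply LF.succ | apply LF.add | apply LF.mul
    | apply LF.sub | apply LF.div | apply LF.mod | apply LF.min | apply LF.max | apply LF.pair
    | apply LF.unpair1 | apply LF.unpair2 | apply LF.ora | apply LF.log2 | apply LF.powConst
    | apply LF.ite | apply LF.sumC | apply LF.leastC | apply LFP.and | apply LFP.or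
    | apply LFP.allC | apply LFP.exC | apply LFP.ne | apply LFP.not | apply LFP.eq
    | apply LFP.le | apply LFP.lt | apply LFP.ge | apply LFP.gt | exact LFP.tt | exact LFP.ff
    | exact LF.weak (by assumption) | exact LF.weak (LF.weak (by assumption))
    | exact LF.weak (LF.weak (LF.weak (by assumption)))
    | exact LF.weak (LF.weak (LF.weak (LF.weak (by assumption))))

theorem LFZ1 : LF (fun x a => fZ1 x (a 0) (a 1) : Fn 2) := by
  unfold fZ1
  repeat' with_reducible first
    | assumption | exact LF.const _ | exact LF.zero | exact LF.proj _ | exact LF.pt1 _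
    | exact LF.pt2 _ | exact LF.pt3 _ | exact LF.pt4 _ | exact LF.pt5 _ | apply LFst
    | apply LFpw | apply LFask | apply LFbs | apply LFH | apply LF.succ | apply LF.add
    | apply LF.mul | apply LF.sub | apply LF.div | apply LF.mod | apply LF.min | apply LF.max
    | apply LF.pair | apply LF.unpair1 | apply LF.unpair2 | apply LF.ora | apply LF.log2
    | apply LF.powConst | apply LF.ite | apply LF.sumC | apply LF.leastC | apply LFP.and
    | apply LFP.or | apply LFP.allC | apply LFP.exC | apply LFP.ne | apply LFP.not
    | apply LFP.eq | apply LFP.le | apply LFP.lt | apply LFP.ge | apply LFP.gt | exact LFP.tt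
    | exact LFP.ff | exact LF.weak (by assumption) | exact LF.weak (LF.weak (by assumption))
    | exact LF.weak (LF.weak (LF.weak (by assumption)))
    | exact LF.weak (LF.weak (LF.weak (LF.weak (by assumption))))

/-! ### ZZ -/

/-- ZZ: MAJORITY for the loss, `Zst` and `Zs`. -/
noncomputable def fZZ (I : Inp) (l x : ℕ) : ℕ :=
  if ask I (bs I l + (6 + stat I 8)) x = 1 ∨ 2 * stat I 10 ≤ fMaj I l x * stat I 1 ^ 7 then 3
  else if stat I 5 ≤ ask I (bs I l) (Nat.pair 2 (Nat.pair x 0)) then 2 else 0

theorem LFZZ : LF (fun x a => fZZ x (a 0) (a 1) : Fn 2) := by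
  unfold fZZ
  repeat' with_reducible first
    | assumption | exact LF.const _ | exact LF.zero | exact LF.proj _ | exact LF.pt1 _
    | exact LF.pt2 _ | exact LF.pt3 _ | exact LF.pt4 _ | exact LF.pt5 _ | apply LFst
    | apply LFask | apply LFbs | apply LFMaj' | apply LF.succ | apply LF.add | apply LF.mul
    | apply LF.sub | apply LF.div | apply LF.mod | apply LF.min | apply LF.max | apply LF.pair
    | apply LF.unpair1 | apply LF.unpair2 | apply LF.ora | apply LF.log2 | apply LF.powConst
    | apply LF.ite | apply LF.sumC | apply LF.leastC | apply LFP.and | apply LFP.or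
    | apply LFP.allC | apply LFP.exC | apply LFP.ne | apply LFP.not | apply LFP.eq
    | apply LFP.le | apply LFP.lt | apply LFP.ge | apply LFP.gt | exact LFP.tt | exact LFP.ff
    | exact LF.weak (by assumption) | exact LF.weak (LF.weak (by assumption))
    | exact LF.weak (LF.weak (LF.weak (by assumption)))
    | exact LF.weak (LF.weak (LF.weak (LF.weak (by assumption))))

/-! ### Newton -/

/-- `2 ≤ isZs` says that `x` is in `Zs`. -/
def isZs (I : Inp) (l x : ℕ) : ℕ := ask I (bs I l + (10 + stat I 8)) x

/-- Positive part of `Lm`. -/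
def fLp (I : Inp) (v x : ℕ) : ℕ := if v = x then stat I 10 else 0

/-- Negative part of `Lm`. -/
def fLn (I : Inp) (l v x : ℕ) : ℕ :=
  if 2 ≤ isZs I l x then 0
  else (pw I 2 (stat I 4) - 1) * stat I 6 * ask I (bs I l) (Nat.pair 0 (Nat.pair v x))

theorem LFisZs {f g : Fn k} (hf : LF f) (hg : LF g) : LF (fun x a => isZs x (f x a) (g x a)) := by
  unfold isZs
  repeat' with_reducible first
    | assumption | exact LF.const _ | exact LF.zero | exact LF.proj _ | exact LF.pt1 _
    | exact LF.pt2 _ | exact LF.pt3 _ | exact LF.pt4 _ | exact LF.pt5 _ | apply LFst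
    | apply LFask | apply LFbs | apply LF.succ | apply LF.add | apply LF.mul | apply LF.sub
    | apply LF.div | apply LF.mod | apply LF.min | apply LF.max | apply LF.pair
    | apply LF.unpair1 | apply LF.unpair2 | apply LF.ora | apply LF.log2 | apply LF.powConst
    | apply LF.ite | apply LF.sumC | apply LF.leastC | apply LFP.and | apply LFP.or
    | apply LFP.allC | apply LFP.exC | apply LFP.ne | apply LFP.not | apply LFP.eq
    | apply LFP.le | apply LFP.lt | apply LFP.ge | apply LFP.gt | exact LFP.tt | exact LFP.ff
    | exact LF.weak (by assumption) | exact LF.weak (LF.weak (by assumption))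
    | exact LF.weak (LF.weak (LF.weak (by assumption)))
    | exact LF.weak (LF.weak (LF.weak (LF.weak (by assumption))))

theorem LFLp {f g : Fn k} (hf : LF f) (hg : LF g) : LF (fun x a => fLp x (f x a) (g x a)) := by
  unfold fLp
  repeat' with_reducible first
    | assumption | exact LF.const _ | exact LF.zero | exact LF.proj _ | exact LF.pt1 _
    | exact LF.pt2 _ | exact LF.pt3 _ | exact LF.pt4 _ | exact LF.pt5 _ | apply LFst
    | apply LF.succ | apply LF.add | apply LF.mul | apply LF.sub | apply LF.div | apply LF.mod
    | apply LF.min | apply LF.max | apply LF.pair | apply LF.unpair1 | apply LF.unpair2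
    | apply LF.ora | apply LF.log2 | apply LF.powConst | apply LF.ite | apply LF.sumC
    | apply LF.leastC | apply LFP.and | apply LFP.or | apply LFP.allC | apply LFP.exC
    | apply LFP.ne | apply LFP.not | apply LFP.eq | apply LFP.le | apply LFP.lt | apply LFP.ge
    | apply LFP.gt | exact LFP.tt | exact LFP.ff | exact LF.weak (by assumption)
    | exact LF.weak (LF.weak (by assumption))
    | exact LF.weak (LF.weak (LF.weak (by assumption)))
    | exact LF.weak (LF.weak (LF.weak (LF.weak (by assumption))))

theorem LFLn {f g h : Fn k} (hf : LF f) (hg : LF g) (hh : LF h) :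
    LF (fun x a => fLn x (f x a) (g x a) (h x a)) := by
  unfold fLn
  repeat' with_reducible first
    | assumption | exact LF.const _ | exact LF.zero | exact LF.proj _ | exact LF.pt1 _
    | exact LF.pt2 _ | exact LF.pt3 _ | exact LF.pt4 _ | exact LF.pt5 _ | apply LFst
    | apply LFask | apply LFbs | apply LFpw | apply LFisZs | apply LF.succ | apply LF.add
    | apply LF.mul | apply LF.sub | apply LF.div | apply LF.mod | apply LF.min | apply LF.max
    | apply LF.pair | apply LF.unpair1 | apply LF.unpair2 | apply LF.ora | apply LF.log2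
    | apply LF.powConst | apply LF.ite | apply LF.sumC | apply LF.leastC | apply LFP.and
    | apply LFP.or | apply LFP.allC | apply LFP.exC | apply LFP.ne | apply LFP.not
    | apply LFP.eq | apply LFP.le | apply LFP.lt | apply LFP.ge | apply LFP.gt | exact LFP.tt
    | exact LFP.ff | exact LF.weak (by assumption) | exact LF.weak (LF.weak (by assumption))
    | exact LF.weak (LF.weak (LF.weak (by assumption)))
    | exact LF.weak (LF.weak (LF.weak (LF.weak (by assumption))))

/-- H: `2 I - G L` (coded with offset `Om`); the previous level is `G`. With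
`g = G + Om` the product `∑ G L` is `X - Y`. -/
def fHn (I : Inp) (l v y : ℕ) : ℕ :=
  (if v = y then 2 * stat I 10 else 0) + 2 * stat I 18 -
    (∑ u ∈ range (stat I 0), (ask I (l - 1) (Nat.pair v u) * fLp I u y +
        stat I 18 * fLn I l u y) + stat I 18 * stat I 10 -
      ∑ u ∈ range (stat I 0), (ask I (l - 1) (Nat.pair v u) * fLn I l u y +
        stat I 18 * fLp I u y)) / stat I 10

/-- G in the first step: the product of the factors of kind `2`. -/
def fG0 (I : Inp) (l v x : ℕ) : ℕ :=
  ask I (l - 1) (Nat.pair 0 (Nat.pair v x)) + stat I 18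

/-- G in the other steps: level `l - 1` is `H`, level `l - 2` is the old `G`. -/
def fG1 (I : Inp) (l v x : ℕ) : ℕ :=
  (∑ y ∈ range (stat I 0), (ask I (l - 1) (Nat.pair v y) * ask I (l - 2) (Nat.pair y x) +
      stat I 18 * stat I 18) + stat I 18 * stat I 10 -
    ∑ y ∈ range (stat I 0), stat I 18 * (ask I (l - 1) (Nat.pair v y) +
      ask I (l - 2) (Nat.pair y x))) / stat I 10

/-- G. -/
def fG (I : Inp) (l q : ℕ) : ℕ :=
  if l % stat I 19 = 15 + 2 * stat I 8 then fG0 I l (u1 q) (u2 q) else fG1 I l (u1 q) (u2 q)

/-- H. -/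
def fHH (I : Inp) (l q : ℕ) : ℕ := fHn I l (u1 q) (u2 q)

/-- Phi, minus 1, cut at 0; the previous level is the last `G`. -/
def fPhi' (I : Inp) (l v x : ℕ) : ℕ :=
  (∑ y ∈ range (stat I 0), ask I (l - 1) (Nat.pair v y) *
      ask I (bs I l) (Nat.pair 0 (Nat.pair y x)) *
      (if 2 ≤ isZs I l x then pw I 2 (stat I 4) else 1) -
    ∑ y ∈ range (stat I 0), stat I 18 * ask I (bs I l) (Nat.pair 0 (Nat.pair y x)) *
      (if 2 ≤ isZs I l x then pw I 2 (stat I 4) else 1)) / (stat I 10 * pw I 2 (stat I 4)) - 1

/-- Phi. -/
def fPhi (I : Inp) (l q : ℕ) : ℕ := fPhi' I l (u1 q) (u2 q)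

theorem LFHH : LF (fun x a => fHH x (a 0) (a 1) : Fn 2) := by
  unfold fHH fHn
  repeat' with_reducible first
    | assumption | exact LF.const _ | exact LF.zero | exact LF.proj _ | exact LF.pt1 _
    | exact LF.pt2 _ | exact LF.pt3 _ | exact LF.pt4 _ | exact LF.pt5 _ | apply LFst
    | apply LFask | apply LFu1 | apply LFu2 | apply LFLp | apply LFLn | apply LF.succ
    | apply LF.add | apply LF.mul | apply LF.sub | apply LF.div | apply LF.mod | apply LF.min
    | apply LF.max | apply LF.pair | apply LF.unpair1 | apply LF.unpair2 | apply LF.ora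
    | apply LF.log2 | apply LF.powConst | apply LF.ite | apply LF.sumC | apply LF.leastC
    | apply LFP.and | apply LFP.or | apply LFP.allC | apply LFP.exC | apply LFP.ne
    | apply LFP.not | apply LFP.eq | apply LFP.le | apply LFP.lt | apply LFP.ge | apply LFP.gt
    | exact LFP.tt | exact LFP.ff | exact LF.weak (by assumption)
    | exact LF.weak (LF.weak (by assumption))
    | exact LF.weak (LF.weak (LF.weak (by assumption)))
    | exact LF.weak (LF.weak (LF.weak (LF.weak (by assumption))))

theorem LFG : LF (fun x a => fG x (a 0) (a 1) : Fn 2) := by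
  unfold fG fG0 fG1
  repeat' with_reducible first
    | assumption | exact LF.const _ | exact LF.zero | exact LF.proj _ | exact LF.pt1 _
    | exact LF.pt2 _ | exact LF.pt3 _ | exact LF.pt4 _ | exact LF.pt5 _ | apply LFst
    | apply LFask | apply LFu1 | apply LFu2 | apply LF.succ | apply LF.add | apply LF.mul
    | apply LF.sub | apply LF.div | apply LF.mod | apply LF.min | apply LF.max | apply LF.pair
    | apply LF.unpair1 | apply LF.unpair2 | apply LF.ora | apply LF.log2 | apply LF.powConst
    | apply LF.ite | apply LF.sumC | apply LF.leastC | apply LFP.and | apply LFP.or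
    | apply LFP.allC | apply LFP.exC | apply LFP.ne | apply LFP.not | apply LFP.eq
    | apply LFP.le | apply LFP.lt | apply LFP.ge | apply LFP.gt | exact LFP.tt | exact LFP.ff
    | exact LF.weak (by assumption) | exact LF.weak (LF.weak (by assumption))
    | exact LF.weak (LF.weak (LF.weak (by assumption)))
    | exact LF.weak (LF.weak (LF.weak (LF.weak (by assumption))))

theorem LFPhi : LF (fun x a => fPhi x (a 0) (a 1) : Fn 2) := by
  unfold fPhi fPhi'
  repeat' with_reducible first
    | assumption | exact LF.const _ | exact LF.zero | exact LF.proj _ | exact LF.pt1 _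
    | exact LF.pt2 _ | exact LF.pt3 _ | exact LF.pt4 _ | exact LF.pt5 _ | apply LFst
    | apply LFask | apply LFbs | apply LFpw | apply LFu1 | apply LFu2 | apply LFisZs
    | apply LF.succ | apply LF.add | apply LF.mul | apply LF.sub | apply LF.div | apply LF.mod
    | apply LF.min | apply LF.max | apply LF.pair | apply LF.unpair1 | apply LF.unpair2
    | apply LF.ora | apply LF.log2 | apply LF.powConst | apply LF.ite | apply LF.sumC
    | apply LF.leastC | apply LFP.and | apply LFP.or | apply LFP.allC | apply LFP.exC
    | apply LFP.ne | apply LFP.not | apply LFP.eq | apply LFP.le | apply LFP.lt | apply LFP.ge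
    | apply LFP.gt | exact LFP.tt | exact LFP.ff | exact LF.weak (by assumption)
    | exact LF.weak (LF.weak (by assumption))
    | exact LF.weak (LF.weak (LF.weak (by assumption)))
    | exact LF.weak (LF.weak (LF.weak (LF.weak (by assumption))))

/-- The functions with two arguments, in the form of programs. -/
def fn2 (f : Inp → ℕ → ℕ → ℕ) : Fn 2 := fun I a => f I (a 0) (a 1)

end Vale.Agent.P313.TS.F3
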