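import Vale.Agent.P313.BundleTS

/-!
More closure properties of `TS.LF` and `TS.LFP`, with binders in curried form, and the pairing
functions.
-/

namespace Vale.Agent.P313.TS

open Finset

variable {k : ℕ}

/-! ### projections behind `Fin.tail` -/

theorem LF.pt1 (i : Fin k) : LF (fun _ b => Fin.tail b i : Fn (k + 1)) := (LF.proj i).weak
theorem LF.pt2 (i : Fin k) : LF (fun _ b => Fin.tail (Fin.tail b) i : Fn (k + 2)) :=
  (LF.pt1 i).weak
theorem LF.pt3 (i : Fin k) : LF (fun _ b => Fin.tail (Fin.tail (Fin.tail b)) i : Fn (k + 3)) :=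
  (LF.pt2 i).weak
theorem LF.pt4 (i : Fin k) :
    LF (fun _ b => Fin.tail (Fin.tail (Fin.tail (Fin.tail b))) i : Fn (k + 4)) :=
  (LF.pt3 i).weak
theorem LF.pt5 (i : Fin k) :
    LF (fun _ b => Fin.tail (Fin.tail (Fin.tail (Fin.tail (Fin.tail b)))) i : Fn (k + 5)) :=
  (LF.pt4 i).weak

/-! ### binders in curried form -/

theorem LF.sumC {n : Fn k} {g : Inp → (Fin k → ℕ) → ℕ → ℕ} (hn : LF n)
    (hg : LF (fun x b => g x (Fin.tail b) (b 0) : Fn (k + 1))) :
    LF (fun x a => ∑ i ∈ range (n x a), g x a i) :=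
  (LF.sum hg hn).congr fun x a => by simp only [Fin.tail_cons, Fin.cons_zero]

theorem LF.leastC {n : Fn k} {P : Inp → (Fin k → ℕ) → ℕ → Prop} (hn : LF n)
    (hP : LFP (fun x b => P x (Fin.tail b) (b 0) : Inp → (Fin (k + 1) → ℕ) → Prop)) :
    LF (fun x a => leastBelow (fun i => P x a i) (n x a)) :=
  (LF.least hP hn).congr fun x a => by simp only [Fin.tail_cons, Fin.cons_zero]

theorem LFP.allC {n : Fn k} {P : Inp → (Fin k → ℕ) → ℕ → Prop} (hn : LF n)
    (hP : LFP (fun x b => P x (Fin.tail b) (b 0) : Inp → (Fin (k + 1) → ℕ) → Prop)) :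
    LFP (fun x a => ∀ i < n x a, P x a i) :=
  (LFP.all hP hn).congr fun x a => by simp only [Fin.tail_cons, Fin.cons_zero]

theorem LFP.exC {n : Fn k} {P : Inp → (Fin k → ℕ) → ℕ → Prop} (hn : LF n)
    (hP : LFP (fun x b => P x (Fin.tail b) (b 0) : Inp → (Fin (k + 1) → ℕ) → Prop)) :
    LFP (fun x a => ∃ i < n x a, P x a i) :=
  (LFP.not (LFP.allC (P := fun x a i => ¬ P x a i) hn hP.not)).congr fun x a => by
    simp only [not_forall, not_not, exists_prop]

theorem LF.max {f g : Fn k} (hf : LF f) (hg : LF g) : LF (fun x a => max (f x a) (g x a)) :=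
  (LF.ite (LFP.le hf hg) hg hf).congr fun x a => by
    rw [max_def]

theorem LFP.ne {f g : Fn k} (hf : LF f) (hg : LF g) : LFP (fun x a => f x a ≠ g x a) :=
  (LFP.eq hf hg).not

theorem LFP.ge {f g : Fn k} (hf : LF f) (hg : LF g) : LFP (fun x a => f x a ≥ g x a) :=
  LFP.le hg hf

theorem LFP.gt {f g : Fn k} (hf : LF f) (hg : LF g) : LFP (fun x a => f x a > g x a) :=
  LFP.lt hg hf

theorem LFP.tt : LFP (fun _ _ => True : Inp → (Fin k → ℕ) → Prop) :=
  (LF.const 1).congr fun _ _ => (ind_true trivial).symm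

theorem LFP.ff : LFP (fun _ _ => False : Inp → (Fin k → ℕ) → Prop) :=
  (LF.const 0).congr fun _ _ => (ind_false not_false).symm

theorem LFP.iff {P Q : Inp → (Fin k → ℕ) → Prop} (h : LFP P) (h' : LFP Q) :
    LFP (fun x a => P x a ↔ Q x a) :=
  ((LFP.imp h h').and (LFP.imp h' h)).congr fun x a => by tauto

/-! ### pairing -/

theorem LF.pair {f g : Fn k} (hf : LF f) (hg : LF g) : LF (fun x a => Nat.pair (f x a) (g x a)) :=
  (LF.ite (LFP.lt hf hg) ((hg.mul hg).add hf) (((hf.mul hf).add hf).add hg)).congr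
    fun x a => by rw [Nat.pair]

theorem leastBelow_eq {p : ℕ → Prop} {n m : ℕ} (hm : m ≤ n) (h1 : ∀ i < m, ¬ p i)
    (h2 : m < n → p m) : leastBelow p n = m := by
  classical
  unfold leastBelow
  have h3 : ∀ i ∈ range n, ind (∀ j < i + 1, ¬ p j) = if i ∈ range m then 1 else 0 := by
    intro i hi
    rw [ind_eq_ite]
    refine if_congr ?_ rfl rfl
    rw [Finset.mem_range] at hi ⊢
    constructor
    · intro h
      by_contra hc
      exact h m (by omega) (h2 (by omega))
    · intro h j hj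
      exact h1 j (by omega)
  rw [Finset.sum_congr rfl h3, ← Finset.card_filter]
  have h4 : (range n).filter (fun i => i ∈ range m) = range m := by
    ext i
    simp only [Finset.mem_filter, Finset.mem_range]
    omega
  rw [h4, Finset.card_range]

theorem LF.sqrt {f : Fn k} (hf : LF f) : LF (fun x a => Nat.sqrt (f x a)) := by
  refine (LF.leastC (n := fun x a => f x a + 1)
    (P := fun x a i => f x a < (i + 1) * (i + 1)) hf.succ ?_).congr fun x a => ?_
  · exact LFP.lt (hf.weak) (((LF.proj 0).succ).mul ((LF.proj 0).succ))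
  · refine leastBelow_eq ?_ ?_ ?_
    · exact (Nat.sqrt_le_self _).trans (Nat.le_succ _)
    · intro i hi
      rw [not_lt]
      exact Nat.le_sqrt.1 hi
    · intro _
      exact Nat.sqrt_lt.1 (Nat.lt_succ_self _)

theorem LF.unpair1 {f : Fn k} (hf : LF f) : LF (fun x a => (Nat.unpair (f x a)).1) := by
  have hs := hf.sqrt
  refine (LF.ite (LFP.lt (hf.sub (hs.mul hs)) hs) (hf.sub (hs.mul hs)) hs).congr fun x a => ?_
  rw [Nat.unpair]
  split_ifs <;> rfl

theorem LF.unpair2 {f : Fn k} (hf : LF f) : LF (fun x a => (Nat.unpair (f x a)).2) := by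
  have hs := hf.sqrt
  refine (LF.ite (LFP.lt (hf.sub (hs.mul hs)) hs) hs
    ((hf.sub (hs.mul hs)).sub hs)).congr fun x a => ?_
  rw [Nat.unpair]
  split_ifs <;> rfl

end Vale.Agent.P313.TS
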