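import Vale.Agent.P313.H285.Spec2
import Vale.Agent.P313.H285.Ev

/-!
The functions of the phases DATA, MAJORITY, PROD, Z1, ZZ, G, H, Phi have the values of
`BP.phVal` on valid queries, if the lower phases answer canonically.
-/

namespace Vale.Agent.P313.TS.F3

open Finset TS BP
open Vale.Agent.P313.CT (ask stat bnd)

/-- The phases below `k` of the stage with base level `L` answer canonically at the tape `t`. -/
def AnsI (I : Inp) (p : Par2) (S : Sem) (T : TSem) (w : ℕ → ℕ) (d : SD) (o o' o'' L k : ℕ)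
    (t : Tp) : Prop :=
  ∀ ph < k, ∀ q, vq p d ph q → ask I (L + ph) q = phVal p S T w d o o' o'' ph q t

variable {I : Inp} {p : Par2} {S : Sem} {T : TSem} {w : ℕ → ℕ} {d : SD} {o o' o'' k L : ℕ}
  {t : Tp}

theorem AnsI.mono {k' : ℕ} (h : AnsI I p S T w d o o' o'' L k t) (hk : k' ≤ k) :
    AnsI I p S T w d o o' o'' L k' t := fun ph hph => h ph (by omega)

theorem AnsI.dok (h : AnsI I p S T w d o o' o'' L k t) (hk : 0 < k) :
    DOk I p.toPar d L := by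
  have h0 : ∀ q, vq p d phData q → ask I L q = phVal p S T w d o o' o'' phData q t :=
    fun q hq => h 0 hk q hq
  refine ⟨fun v hv x hx => ?_, fun v hv => ?_, fun v hv => ?_⟩
  · rw [h0 _ (by simp [vq, hv, hx])]
    simp [phVal]
  · rw [h0 _ (by simp only [vq, if_true, q1_pair, q2_pair, e3_pair]; omega)]
    simp [phVal]
  · rw [h0 _ (by simp only [vq, if_true, q1_pair, q2_pair, e3_pair]; omega)]
    simp [phVal]

theorem pair3 (q : ℕ) : Nat.pair (q1 q) (Nat.pair (q2 q) (e3 q)) = q := by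
  simp [q1, q2, e3, Nat.pair_unpair]

theorem pair2 (q : ℕ) : Nat.pair (q1 q) (e2 q) = q := by
  simp [q1, e2, Nat.pair_unpair]

theorem AnsI.pj0 (h : AnsI I p S T w d o o' o'' L k t) (hk : phPJ0 < k) {j q : ℕ}
    (hj : j ≤ p.lw) (ha : q1 q < p.r) (hv : q2 q < p.n) (hx : e3 q < p.n) :
    ask I (L + phPJ0) (Nat.pair j q) =
      avgV p T w d (fun _ => False) o j (q1 q) (q2 q) (e3 q) t := by
  have e1 : q1 (Nat.pair j q) = j := by simp
  have e2 : q2 (Nat.pair j q) = q1 q := by simp [q1, q2]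
  have e3' : q3 (Nat.pair j q) = q2 q := by simp [q3, q2]
  have e4 : q4 (Nat.pair j q) = e3 q := by simp [q4, e3]
  rw [h phPJ0 hk _ ((vq_PJ0 ..).2 (by rw [e1, e2, e3', e4]; exact ⟨hj, ha, hv, hx⟩)), phVal_PJ0,
    e1, e2, e3', e4]

theorem AnsI.pj2 (h : AnsI I p S T w d o o' o'' L k t) (hk : phPJ2 p.JF < k) {j q : ℕ}
    (hj : j ≤ p.lw) (ha : q1 q < p.r) (hv : q2 q < p.n) (hx : e3 q < p.n) :
    ask I (L + phPJ2 p.JF) (Nat.pair j q) =
      avgV p T w d (Zs p.toPar S d o o') o'' j (q1 q) (q2 q) (e3 q) t := by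
  have e1 : q1 (Nat.pair j q) = j := by simp
  have e2 : q2 (Nat.pair j q) = q1 q := by simp [q1, q2]
  have e3' : q3 (Nat.pair j q) = q2 q := by simp [q3, q2]
  have e4 : q4 (Nat.pair j q) = e3 q := by simp [q4, e3]
  rw [h _ hk _ ((vq_PJ2 ..).2 (by rw [e1, e2, e3', e4]; exact ⟨hj, ha, hv, hx⟩)), phVal_PJ2,
    e1, e2, e3', e4]

theorem AnsI.lj (h : AnsI I p S T w d o o' o'' L k t) (hk : phLJ p.JF < k) {j q : ℕ}
    (hj : j ≤ p.lw) (hx : q < p.n) :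
    ask I (L + phLJ p.JF) (Nat.pair j q) =
      avgL p T w d (Z1 p.toPar S d o) o' j q t := by
  have e1 : q1 (Nat.pair j q) = j := by simp
  have e2' : e2 (Nat.pair j q) = q := by simp
  rw [h _ hk _ ((vq_LJ ..).2 (by rw [e1, e2']; exact ⟨hj, hx⟩)), phVal_LJ, e1, e2']

theorem AnsI.p0 (h : AnsI I p S T w d o o' o'' L k t) (hk : phP0 < k) {i v x : ℕ} (hi : i < p.r)
    (hv : v < p.n) (hx : x < p.n) :
    ask I (L + phP0) (Nat.pair i (Nat.pair v x)) = P0 p.toPar S d o i v x := by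
  rw [h _ hk _ ((vq_P0 ..).2 (by simp only [q1_pair, q2_pair, e3_pair]; exact ⟨hi, hv, hx⟩)),
    phVal_P0, q1_pair, q2_pair, e3_pair]

theorem AnsI.p2 (h : AnsI I p S T w d o o' o'' L k t) (hk : phP2 p.JF < k) {i v x : ℕ}
    (hi : i < p.r) (hv : v < p.n) (hx : x < p.n) :
    ask I (L + phP2 p.JF) (Nat.pair i (Nat.pair v x)) = P2 p.toPar S d o o' o'' i v x := by
  rw [h _ hk _ ((vq_P2 ..).2 (by simp only [q1_pair, q2_pair, e3_pair]; exact ⟨hi, hv, hx⟩)),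
    phVal_P2, q1_pair, q2_pair, e3_pair]

theorem AnsI.pr0 (h : AnsI I p S T w d o o' o'' L k t) {j : ℕ} (hj : j ≤ p.JF)
    (hk : phPr0 j < k) {i v x : ℕ} (hi : i < 2 ^ (p.JF - j)) (hv : v < p.n) (hx : x < p.n) :
    ask I (L + phPr0 j) (Nat.pair i (Nat.pair v x)) =
      prodM p.toPar (fac0 p.toPar S d o) j i v x := by
  rw [h _ hk _ ((vq_Pr0 _ _ _ _ hj).2 (by
    simp only [q1_pair, q2_pair, e3_pair]; exact ⟨hi, hv, hx⟩)),
    phVal_Pr0 _ _ _ _ _ _ _ _ _ _ _ hj, q1_pair, q2_pair, e3_pair]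

theorem AnsI.pr2 (h : AnsI I p S T w d o o' o'' L k t) {j : ℕ} (hj : j ≤ p.JF)
    (hk : phPr2 p.JF j < k) {i v x : ℕ} (hi : i < 2 ^ (p.JF - j)) (hv : v < p.n) (hx : x < p.n) :
    ask I (L + phPr2 p.JF j) (Nat.pair i (Nat.pair v x)) =
      prodM p.toPar (fac2 p.toPar S d o o' o'') j i v x := by
  rw [h _ hk _ ((vq_Pr2 _ _ _ _ hj).2 (by
    simp only [q1_pair, q2_pair, e3_pair]; exact ⟨hi, hv, hx⟩)),
    phVal_Pr2 _ _ _ _ _ _ _ _ _ _ _ hj, q1_pair, q2_pair, e3_pair]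

open Classical in
theorem AnsI.z1 (h : AnsI I p S T w d o o' o'' L k t) (hk : phZ1 p.JF < k) {x : ℕ}
    (hx : x < p.n) : ask I (L + phZ1 p.JF) x = if Z1 p.toPar S d o x then 1 else 0 := by
  rw [h _ hk _ ((vq_Z1 ..).2 hx), phVal_Z1]

theorem AnsI.zok (h : AnsI I p S T w d o o' o'' L k t) (hk : phZZ p.JF < k) :
    ZOk I p.toPar S d o o' (L + phZZ p.JF) := by
  refine ZOk.of _ fun x hx => ?_
  rw [h _ hk _ ((vq_ZZ ..).2 hx), phVal_ZZ]

theorem AnsI.g (h : AnsI I p S T w d o o' o'' L k t) {j : ℕ} (hj : j ≤ p.JN)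
    (hk : phG p.JF j < k) {v x : ℕ} (hv : v < p.n) (hx : x < p.n) :
    ask I (L + phG p.JF j) (Nat.pair v x) =
      (Gz p.toPar S d o o' o'' j v x + p.Om).toNat := by
  rw [h _ hk _ ((vq_G ..).2 (by simp only [q1_pair, e2_pair]; exact ⟨hv, hx⟩)),
    phVal_G _ _ _ _ _ _ _ _ _ _ _ hj, q1_pair, e2_pair]

theorem AnsI.hh (h : AnsI I p S T w d o o' o'' L k t) {j : ℕ} (hj : j < p.JN)
    (hk : phH p.JF j < k) {v x : ℕ} (hv : v < p.n) (hx : x < p.n) :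
    ask I (L + phH p.JF j) (Nat.pair v x) =
      (Hn p.toPar (Lm p.toPar S d o o') (Gz p.toPar S d o o' o'' j) v x + p.Om).toNat := by
  rw [h _ hk _ ((vq_H ..).2 (by simp only [q1_pair, e2_pair]; exact ⟨hv, hx⟩)),
    phVal_H _ _ _ _ _ _ _ _ _ _ _ hj, q1_pair, e2_pair]

theorem AnsI.phi (h : AnsI I p S T w d o o' o'' L k t) (hk : phPhi p.JF p.JN < k) {v x : ℕ}
    (hv : v < p.n) (hx : x < p.n) :
    ask I (L + phPhi p.JF p.JN) (Nat.pair v x) =
      (Phi p.toPar S d o o' o'' v x - 1).toNat := by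
  rw [h _ hk _ ((vq_Phi ..).2 (by simp only [q1_pair, e2_pair]; exact ⟨hv, hx⟩)),
    phVal_Phi, q1_pair, e2_pair]

/-! ### The phases -/

/-- MAJORITY of kind `0`. -/
theorem maj0_val {s q : ℕ} (hlw : stat I 17 = p.lw)
    (h : AnsI I p S T w d o o' o'' (s * nph p.JF p.JN) phP0 t) (hq : vq p d phP0 q)
    (hmj : maj p.lw (fun j => avgV p T w d (fun _ => False) o j (q1 q) (q2 q) (e3 q) t) =
      P0 p.toPar S d o (q1 q) (q2 q) (e3 q)) :
    fMaj I (s * nph p.JF p.JN + phP0) q = phVal p S T w d o o' o'' phP0 q t := by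
  have hv := (vq_P0 ..).1 hq
  rw [phVal_P0, ← hmj]
  exact fMaj_eq (L := s * nph p.JF p.JN + phPJ0) hlw
    (fun j hj => h.pj0 (by decide) hj hv.1 hv.2.1 hv.2.2)

/-- MAJORITY of kind `2`. -/
theorem maj2_val {s q : ℕ} (hlw : stat I 17 = p.lw)
    (h : AnsI I p S T w d o o' o'' (s * nph p.JF p.JN) (phP2 p.JF) t) (hq : vq p d (phP2 p.JF) q)
    (hmj : maj p.lw (fun j => avgV p T w d (Zs p.toPar S d o o') o'' j (q1 q) (q2 q) (e3 q) t) =
      P2 p.toPar S d o o' o'' (q1 q) (q2 q) (e3 q)) :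
    fMaj I (s * nph p.JF p.JN + phP2 p.JF) q = phVal p S T w d o o' o'' (phP2 p.JF) q t := by
  have hv := (vq_P2 ..).1 hq
  rw [phVal_P2, ← hmj]
  have e : s * nph p.JF p.JN + phP2 p.JF = s * nph p.JF p.JN + phPJ2 p.JF + 1 := by
    unfold phP2 phPJ2; omega
  rw [e]
  exact fMaj_eq (L := s * nph p.JF p.JN + phPJ2 p.JF) hlw
    (fun j hj => h.pj2 (by unfold phP2 phPJ2; omega) hj hv.1 hv.2.1 hv.2.2)

/-- PRODUCTS of kind `0`. -/
theorem pr0_val (h : SDOk I p.toPar p.Om) {s j q : ℕ} (hj : j ≤ p.JF)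
    (hA : AnsI I p S T w d o o' o'' (s * nph p.JF p.JN) (phPr0 j) t)
    (hq : vq p d (phPr0 j) q) :
    fPr0 I (s * nph p.JF p.JN + phPr0 j) q = phVal p S T w d o o' o'' (phPr0 j) q t := by
  have hv := (vq_Pr0 _ _ _ _ hj).1 hq
  rw [phVal_Pr0 _ _ _ _ _ _ _ _ _ _ _ hj]
  conv_lhs => rw [← pair3 q]
  cases j with
  | zero =>
    exact fPr0_zero h (fun hi => hA.p0 (by unfold phP0 phPr0; omega) hi hv.2.1 hv.2.2)
  | succ j =>
    refine fPr0_succ h hj hv.2.1 hv.2.2 (fun i' hi' v hv' x hx' => ?_)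
    refine hA.pr0 (by omega) (by unfold phPr0; omega) ?_ hv' hx'
    have h1 : 2 ^ (p.JF - j) = 2 * 2 ^ (p.JF - (j + 1)) := by
      rw [← pow_succ']; congr 1; omega
    have := hv.1
    omega

/-- PRODUCTS of kind `2`. -/
theorem pr2_val (h : SDOk I p.toPar p.Om) (h2 : 2 ^ p.rk ≤ bnd I) {s j q : ℕ} (hj : j ≤ p.JF)
    (hA : AnsI I p S T w d o o' o'' (s * nph p.JF p.JN) (phPr2 p.JF j) t)
    (hq : vq p d (phPr2 p.JF j) q) :
    fPr2 I (s * nph p.JF p.JN + phPr2 p.JF j) q =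
      phVal p S T w d o o' o'' (phPr2 p.JF j) q t := by
  have hv := (vq_Pr2 _ _ _ _ hj).1 hq
  rw [phVal_Pr2 _ _ _ _ _ _ _ _ _ _ _ hj]
  conv_lhs => rw [← pair3 q]
  cases j with
  | zero =>
    exact fPr2_zero h h2 (fun hi => hA.p2 (by unfold phP2 phPr2; omega) hi hv.2.1 hv.2.2)
  | succ j =>
    refine fPr2_succ h hj hv.2.1 hv.2.2 (fun i' hi' v hv' x hx' => ?_)
    refine hA.pr2 (by omega) (by unfold phPr2; omega) ?_ hv' hx'
    have h1 : 2 ^ (p.JF - j) = 2 * 2 ^ (p.JF - (j + 1)) := by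
      rw [← pow_succ']; congr 1; omega
    have := hv.1
    omega

/-- `Z1`. -/
theorem z1_val (h : SDOk I p.toPar p.Om) {s q : ℕ}
    (hA : AnsI I p S T w d o o' o'' (s * nph p.JF p.JN) (phZ1 p.JF) t)
    (hc : ∀ v < p.n, p.q ^ d.c v ≤ bnd I) (hq0 : 0 < p.q) (hq : vq p d (phZ1 p.JF) q) :
    fZ1 I (s * nph p.JF p.JN + phZ1 p.JF) q =
      phVal p S T w d o o' o'' (phZ1 p.JF) q t := by
  have hv := (vq_Z1 ..).1 hq
  rw [phVal_Z1]
  exact fZ1_eq h hv (hA.dok (by unfold phZ1; omega)) hc hq0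
    (fun v hv' => hA.pr0 le_rfl (by unfold phPr0 phZ1; omega) (by positivity) hv' hv)

/-- `Zst` and `Zs`. -/
theorem zz_val (h : SDOk I p.toPar p.Om) (hlw : stat I 17 = p.lw) {s q : ℕ}
    (hA : AnsI I p S T w d o o' o'' (s * nph p.JF p.JN) (phZZ p.JF) t)
    (hq : vq p d (phZZ p.JF) q)
    (hmj : maj p.lw (fun j => avgL p T w d (Z1 p.toPar S d o) o' j q t) =
      lossR p.toPar S d o o' q) :
    fZZ I (s * nph p.JF p.JN + phZZ p.JF) q =
      phVal p S T w d o o' o'' (phZZ p.JF) q t := by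
  have hv := (vq_ZZ ..).1 hq
  rw [phVal_ZZ]
  refine fZZ_eq h hv (hA.dok (by unfold phZZ; omega))
    (hA.z1 (by unfold phZ1 phZZ; omega) hv) ?_
  rw [← hmj]
  have e : s * nph p.JF p.JN + phZZ p.JF = s * nph p.JF p.JN + phLJ p.JF + 1 := by
    unfold phZZ phLJ; omega
  rw [e]
  exact fMaj_eq (L := s * nph p.JF p.JN + phLJ p.JF) hlw
    (fun j hj => hA.lj (by unfold phLJ phZZ; omega) hj hv)

/-- `G`. -/
theorem g_val (h : SDOk I p.toPar p.Om) (hTh : 0 < p.Th) {s j q : ℕ} (hj : j ≤ p.JN)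
    (hA : AnsI I p S T w d o o' o'' (s * nph p.JF p.JN) (phG p.JF j) t)
    (hq : vq p d (phG p.JF j) q)
    (hGb : ∀ i < j, ∀ v < p.n, ∀ x < p.n, -(p.Om : ℤ) ≤ Gz p.toPar S d o o' o'' i v x)
    (hHb : ∀ i < j, ∀ v < p.n, ∀ x < p.n,
      -(p.Om : ℤ) ≤ Hn p.toPar (Lm p.toPar S d o o') (Gz p.toPar S d o o' o'' i) v x) :
    fG I (s * nph p.JF p.JN + phG p.JF j) q =
      phVal p S T w d o o' o'' (phG p.JF j) q t := by
  have hv := (vq_G ..).1 hq
  rw [phVal_G _ _ _ _ _ _ _ _ _ _ _ hj]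
  conv_lhs => rw [← pair2 q]
  cases j with
  | zero =>
    exact fG_zero h (hA.pr2 le_rfl (by unfold phPr2 phG; omega) (by positivity) hv.1 hv.2)
  | succ j =>
    exact fG_succ h hTh hj (fun y hy => hA.hh (by omega) (by unfold phG phH; omega) hv.1 hy)
      (fun y hy => hHb j (by omega) _ hv.1 _ hy)
      (fun y hy => hA.g (by omega) (by unfold phG; omega) hy hv.2)
      (fun y hy => hGb j (by omega) _ hy _ hv.2)

/-- `H`. -/
theorem h_val (h : SDOk I p.toPar p.Om) (h2 : 2 ^ p.rk ≤ bnd I) (hTh : 0 < p.Th) {s j q : ℕ}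
    (hj : j < p.JN) (hA : AnsI I p S T w d o o' o'' (s * nph p.JF p.JN) (phH p.JF j) t)
    (hq : vq p d (phH p.JF j) q)
    (hGb : ∀ v < p.n, ∀ x < p.n, -(p.Om : ℤ) ≤ Gz p.toPar S d o o' o'' j v x)
    (hHb : ∀ v < p.n, ∀ x < p.n,
      Hn p.toPar (Lm p.toPar S d o o') (Gz p.toPar S d o o' o'' j) v x ≤ p.Om) :
    fHH I (s * nph p.JF p.JN + phH p.JF j) q =
      phVal p S T w d o o' o'' (phH p.JF j) q t := by
  have hv := (vq_H ..).1 hq
  rw [phVal_H _ _ _ _ _ _ _ _ _ _ _ hj]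
  conv_lhs => rw [← pair2 q]
  exact fHH_eq h h2 hTh hj hv.2 (hA.dok (by unfold phH; omega))
    (hA.zok (by unfold phZZ phH; omega))
    (fun u hu => hA.g hj.le (by unfold phG phH; omega) hv.1 hu)
    (fun u hu => hGb _ hv.1 _ hu) (hHb _ hv.1 _ hv.2)

/-- `Phi`. -/
theorem phi_val (h : SDOk I p.toPar p.Om) (h2 : 2 ^ p.rk ≤ bnd I) (hTh : 0 < p.Th) {s q : ℕ}
    (hA : AnsI I p S T w d o o' o'' (s * nph p.JF p.JN) (phPhi p.JF p.JN) t)
    (hq : vq p d (phPhi p.JF p.JN) q)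
    (hGb : ∀ v < p.n, ∀ x < p.n, -(p.Om : ℤ) ≤ Gz p.toPar S d o o' o'' p.JN v x) :
    fPhi I (s * nph p.JF p.JN + phPhi p.JF p.JN) q =
      phVal p S T w d o o' o'' (phPhi p.JF p.JN) q t := by
  have hv := (vq_Phi ..).1 hq
  rw [phVal_Phi]
  conv_lhs => rw [← pair2 q]
  exact fPhi_eq h h2 hTh hv.2 (hA.dok (by unfold phPhi; omega))
    (hA.zok (by unfold phZZ phPhi; omega))
    (fun u hu => hA.g le_rfl (by unfold phG phPhi; omega) hv.1 hu)
    (fun u hu => hGb _ hv.1 _ hu)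

/-- DATA, values from the three components. -/
theorem data_val_of {f : ℕ} {q : ℕ} {d' : SD} (hq : q1 q < 3)
    (h0 : q1 q = 0 → f = d'.A (q2 q) (e3 q)) (h1 : q1 q = 1 → f = d'.c (q2 q))
    (h2 : q1 q = 2 → f = d'.k (q2 q)) :
    f = phVal p S T w d' o o' o'' phData q t := by
  rw [phVal_data]
  split_ifs with a b
  · exact h0 a
  · exact h1 b
  · exact h2 (by omega)

/-- DATA of the first stage. -/
theorem data0_val {cs : Inp → ℕ → ℕ → ℕ} {cs' : ℕ → Bool → ℕ} (h : SDOk I p.toPar p.Om)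
    (hqb : p.q ^ p.b ≤ bnd I)
    (hcs : ∀ v, v + 1 < p.n → cs I v 0 = cs' v false ∧ cs I v 1 = cs' v true) {q : ℕ}
    (hq : vq p (init p.toPar cs') phData q) :
    fData cs I 0 q = phVal p S T w (init p.toPar cs') o o' o'' phData q t := by
  have hv := (vq_data ..).1 hq
  have key := fData_zero h hqb hcs (q2 q) (e3 q)
  refine data_val_of hv.1 (fun h0 => ?_) (fun h0 => ?_) (fun h0 => ?_)
  · rw [← key.1, ← h0, pair3]
  · rw [← key.2.1, ← h0, pair3]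
  · rw [← key.2.2, ← h0, pair3]

/-- DATA of the other stages. -/
theorem dataS_val {cs : Inp → ℕ → ℕ → ℕ} {oo oo' oo'' : ℕ} (h : SDOk I p.toPar p.Om)
    (hqb : p.q ^ p.b ≤ bnd I) {s : ℕ}
    (hA : AnsI I p S T w d o o' o'' (s * nph p.JF p.JN) (nph p.JF p.JN) t) {q : ℕ}
    (hq : vq p (next p.toPar S d o o' o'') phData q) :
    fData cs I ((s + 1) * nph p.JF p.JN) q =
      phVal p S T w (next p.toPar S d o o' o'') oo oo' oo'' phData q t := by
  have hv := (vq_data ..).1 hq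
  have key := fData_succ (cs := cs) (v := q2 q) (x := e3 q) h hqb
    (hA.dok (by unfold nph; omega)) (hA.zok (by unfold phZZ nph; omega)) hv.2.1 hv.2.2
    (fun y hy => hA.phi (by unfold phPhi nph; omega) hv.2.1 hy)
  refine data_val_of hv.1 (fun h0 => ?_) (fun h0 => ?_) (fun h0 => ?_)
  · rw [← key.1, ← h0, pair3]
  · rw [← key.2.1, ← h0, pair3]
  · rw [← key.2.2, ← h0, pair3]

end Vale.Agent.P313.TS.F3
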