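import Vale.Agent.P313.H285.Fn
import Vale.Agent.P313.BP.PhVal

/-!
The phases of `Fn.lean` compute the canonical values, if the lower levels do.
-/

namespace Vale.Agent.P313.TS.F3

open Finset TS BP
open Vale.Agent.P313.CT (ask stat bnd)

/-- The static digits `0, ..., 10` and `18, 19` have their values. -/
structure SDOk (I : Inp) (p : Par) (Om : ℕ) : Prop where
  n : stat I 0 = p.n
  q : stat I 1 = p.q
  b : stat I 2 = p.b
  r : stat I 3 = p.r
  rk : stat I 4 = p.rk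
  K : stat I 5 = p.K
  Th1 : stat I 6 = p.Th1
  JF : stat I 8 = p.JF
  JN : stat I 9 = p.JN
  Th : stat I 10 = p.Th
  Om : stat I 18 = Om
  m : stat I 19 = nph p.JF p.JN

variable {I : Inp} {p : Par} {Om : ℕ} {S : Sem} {d : SD} {o o' o'' : ℕ}

theorem pw_eq {u e : ℕ} (h : u ^ e ≤ bnd I) : pw I u e = u ^ e := by
  unfold pw; omega

theorem SDOk.mod (h : SDOk I p Om) (s ph : ℕ) (hp : ph < nph p.JF p.JN) :
    (s * nph p.JF p.JN + ph) % stat I 19 = ph := by
  rw [h.m, Nat.add_comm, Nat.add_mul_mod_self_right, Nat.mod_eq_of_lt hp]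

theorem SDOk.bs (h : SDOk I p Om) (s ph : ℕ) (hp : ph < nph p.JF p.JN) :
    bs I (s * nph p.JF p.JN + ph) = s * nph p.JF p.JN := by
  unfold F3.bs
  rw [h.mod s ph hp]
  omega

/-! ### MAJORITY -/

theorem fMaj_eq {I : Inp} {L q lw : ℕ} {g : ℕ → ℕ} (hlw : stat I 17 = lw)
    (h : ∀ j ≤ lw, ask I L (Nat.pair j q) = g j) : fMaj I (L + 1) q = BP.maj lw g := by
  classical
  have hc : ∀ v, ∑ j ∈ range (lw + 1), (if ask I L (Nat.pair j q) = v then 1 else 0) =
      #{j ∈ range (lw + 1) | g j = v} := fun v => by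
    rw [Finset.card_filter]
    refine Finset.sum_congr rfl fun j hj => ?_
    rw [mem_range] at hj
    rw [h j (by omega)]
  have hidx : fMajI I (L + 1) q = leastBelow
      (fun i => lw + 1 < 2 * #{j ∈ range (lw + 1) | g j = ask I L (Nat.pair i q)}) (lw + 1) := by
    unfold fMajI majI
    rw [Nat.add_sub_cancel, hlw]
    simp only [hc]
  unfold fMaj BP.maj
  rw [hidx, hlw, Nat.add_sub_cancel]
  split_ifs with h1 h2 h2
  · -- both exist
    have h3 := Nat.find_spec h2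
    have h4 : leastBelow (fun i => lw + 1 <
        2 * #{j ∈ range (lw + 1) | g j = ask I L (Nat.pair i q)}) (lw + 1) = Nat.find h2 := by
      refine leastBelow_eq (by omega) ?_ fun _ => ?_
      · intro i hi hi2
        have hi3 : i ≤ lw := by omega
        refine Nat.find_min h2 hi ⟨hi3, ?_⟩
        rw [h i hi3] at hi2
        exact hi2
      · rw [h _ h3.1]
        exact h3.2
    rw [h4, h _ h3.1]
  · exfalso
    apply h2
    have h4 : leastBelow (fun i => lw + 1 <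
        2 * #{j ∈ range (lw + 1) | g j = ask I L (Nat.pair i q)}) (lw + 1) ≠ lw + 1 := by omega
    by_contra h5
    apply h4
    refine leastBelow_eq le_rfl ?_ fun h6 => absurd h6 (lt_irrefl _)
    intro i hi hi2
    apply h5
    refine ⟨i, by omega, ?_⟩
    rw [h i (by omega)] at hi2
    exact hi2
  · exfalso
    have h3 := Nat.find_spec h2
    apply h1
    have h4 : leastBelow (fun i => lw + 1 <
        2 * #{j ∈ range (lw + 1) | g j = ask I L (Nat.pair i q)}) (lw + 1) = Nat.find h2 := by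
      refine leastBelow_eq (by omega) ?_ fun _ => ?_
      · intro i hi hi2
        have hi3 : i ≤ lw := by omega
        refine Nat.find_min h2 hi ⟨hi3, ?_⟩
        rw [h i hi3] at hi2
        exact hi2
      · rw [h _ h3.1]
        exact h3.2
    rw [h4]
    omega
  · rfl

/-! ### PRODUCTS -/

theorem fMul_eq {fac : ℕ → ℕ → ℕ → ℕ} {l j i v x : ℕ} (hn : stat I 0 = p.n) (hTh : stat I 10 = p.Th)
    (hv : v < p.n) (hx : x < p.n)
    (hP : ∀ i' ≤ 2 * i + 1, ∀ v < p.n, ∀ x < p.n,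
      ask I (l - 1) (Nat.pair i' (Nat.pair v x)) = prodM p fac j i' v x) :
    fMul I l i v x = prodM p fac (j + 1) i v x := by
  unfold fMul
  rw [hn, hTh, prodM]
  congr 2
  refine Finset.sum_congr rfl fun y hy => ?_
  rw [mem_range] at hy
  rw [hP _ le_rfl v hv y hy, hP _ (by omega) y hy x hx]

theorem fPr0_zero (h : SDOk I p Om) {s i v x : ℕ} 
    (hP : i < p.r → ask I (s * nph p.JF p.JN + phP0) (Nat.pair i (Nat.pair v x)) =
      P0 p S d o i v x) :
    fPr0 I (s * nph p.JF p.JN + phPr0 0) (Nat.pair i (Nat.pair v x)) =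
      prodM p (fac0 p S d o) 0 i v x := by
  unfold fPr0
  rw [h.mod s _ (by unfold phPr0 nph; omega)]
  rw [if_pos (by rfl)]
  simp only [u1_pair, u2_pair, fFac0, prodM, fac0, h.Th, h.r]
  congr 1
  split_ifs with hi
  · exact hP hi
  · rfl

theorem fPr0_succ (h : SDOk I p Om) {s j i v x : ℕ} (hj : j + 1 ≤ p.JF) (hv : v < p.n)
    (hx : x < p.n)
    (hP : ∀ i' ≤ 2 * i + 1, ∀ v < p.n, ∀ x < p.n,
      ask I (s * nph p.JF p.JN + phPr0 j) (Nat.pair i' (Nat.pair v x)) =
        prodM p (fac0 p S d o) j i' v x) :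
    fPr0 I (s * nph p.JF p.JN + phPr0 (j + 1)) (Nat.pair i (Nat.pair v x)) =
      prodM p (fac0 p S d o) (j + 1) i v x := by
  unfold fPr0
  rw [h.mod s _ (by unfold phPr0 nph; omega)]
  rw [if_neg (by unfold phPr0; omega)]
  simp only [u1_pair, u2_pair]
  exact fMul_eq h.n h.Th hv hx hP

theorem fKp_eq (h : SDOk I p Om) (h2 : 2 ^ p.rk ≤ bnd I) (i : ℕ) : fKp I i = kp p i := by
  unfold fKp
  rw [h.Th, h.rk, pw_eq h2]
  induction i with
  | zero => rfl
  | succ i ih => rw [Function.iterate_succ_apply', ih]; rfl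

theorem fPr2_zero (h : SDOk I p Om) (h2 : 2 ^ p.rk ≤ bnd I) {s i v x : ℕ}
    (hP : i < p.r → ask I (s * nph p.JF p.JN + phP2 p.JF) (Nat.pair i (Nat.pair v x)) =
      P2 p S d o o' o'' i v x) :
    fPr2 I (s * nph p.JF p.JN + phPr2 p.JF 0) (Nat.pair i (Nat.pair v x)) =
      prodM p (fac2 p S d o o' o'') 0 i v x := by
  unfold fPr2
  rw [h.mod s _ (by unfold phPr2 nph; omega), h.JF]
  rw [if_pos (by unfold phPr2; omega)]
  simp only [u1_pair, u2_pair, fFac2, prodM, fac2, h.Th, h.r, fKp_eq h h2]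
  congr 1
  split_ifs with hi
  · have e : s * nph p.JF p.JN + phPr2 p.JF 0 - 1 = s * nph p.JF p.JN + phP2 p.JF := by
      unfold phPr2 phP2; omega
    rw [e, hP hi]
  · rfl

theorem fPr2_succ (h : SDOk I p Om) {s j i v x : ℕ} (hj : j + 1 ≤ p.JF) (hv : v < p.n)
    (hx : x < p.n)
    (hP : ∀ i' ≤ 2 * i + 1, ∀ v < p.n, ∀ x < p.n,
      ask I (s * nph p.JF p.JN + phPr2 p.JF j) (Nat.pair i' (Nat.pair v x)) =
        prodM p (fac2 p S d o o' o'') j i' v x) :
    fPr2 I (s * nph p.JF p.JN + phPr2 p.JF (j + 1)) (Nat.pair i (Nat.pair v x)) =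
      prodM p (fac2 p S d o o' o'') (j + 1) i v x := by
  unfold fPr2
  rw [h.mod s _ (by unfold phPr2 nph; omega), h.JF]
  rw [if_neg (by unfold phPr2; omega)]
  simp only [u1_pair, u2_pair]
  exact fMul_eq h.n h.Th hv hx hP

/-! ### Data of the stage, asked by the later phases -/

/-- The data level of the stage answers correctly. -/
structure DOk (I : Inp) (p : Par) (d : SD) (L : ℕ) : Prop where
  A : ∀ v < p.n, ∀ x < p.n, ask I L (Nat.pair 0 (Nat.pair v x)) = d.A v x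
  c : ∀ v < p.n, ask I L (Nat.pair 1 (Nat.pair v 0)) = d.c v
  k : ∀ v < p.n, ask I L (Nat.pair 2 (Nat.pair v 0)) = d.k v

/-! ### Z1 -/

open Classical in
theorem fZ1_eq (h : SDOk I p Om) {s x : ℕ} (hx : x < p.n)
    (hD : DOk I p d (s * nph p.JF p.JN)) (hc : ∀ v < p.n, p.q ^ d.c v ≤ bnd I) (hq : 0 < p.q)
    (hP : ∀ v < p.n, ask I (s * nph p.JF p.JN + phPr0 p.JF) (Nat.pair 0 (Nat.pair v x)) =
      prodM p (fac0 p S d o) p.JF 0 v x) :
    fZ1 I (s * nph p.JF p.JN + phZ1 p.JF) x = if Z1 p S d o x then 1 else 0 := by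
  have hb : bs I (s * nph p.JF p.JN + phZ1 p.JF) = s * nph p.JF p.JN :=
    h.bs s _ (by unfold phZ1 nph; omega)
  have hl : s * nph p.JF p.JN + phZ1 p.JF - 1 = s * nph p.JF p.JN + phPr0 p.JF := by
    unfold phZ1 phPr0; omega
  have hH : ∀ v < p.n, fH I (s * nph p.JF p.JN + phZ1 p.JF) v = p.q ^ (d.c v - p.b) := by
    intro v hv
    unfold fH
    rw [hb, hD.c v hv, h.q, h.b]
    exact pw_eq ((Nat.pow_le_pow_right hq (Nat.sub_le _ _)).trans (hc v hv))
  have e1 : ∑ v ∈ range (stat I 0), fH I (s * nph p.JF p.JN + phZ1 p.JF) v *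
      ask I (bs I (s * nph p.JF p.JN + phZ1 p.JF)) (Nat.pair 0 (Nat.pair v x)) = tot p d x := by
    rw [h.n, hb, tot]
    refine Finset.sum_congr rfl fun v hv => ?_
    rw [mem_range] at hv
    rw [hH v hv, hD.A v hv x hx]
  have e2 : ∑ v ∈ range (stat I 0), fH I (s * nph p.JF p.JN + phZ1 p.JF) v *
      ask I (s * nph p.JF p.JN + phZ1 p.JF - 1) (Nat.pair 0 (Nat.pair v x)) = Ft p S d o x := by
    rw [h.n, hl, Ft]
    refine Finset.sum_congr rfl fun v hv => ?_
    rw [mem_range] at hv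
    rw [hH v hv, hP v hv]
  unfold fZ1
  rw [e1, e2, hH x hx, hb, hD.c x hx, h.q, h.Th, pw_eq (hc x hx), ← pow_add, ← pow_add]
  exact if_congr Iff.rfl rfl rfl

/-! ### ZZ -/

open Classical in
theorem fZZ_eq (h : SDOk I p Om) {s x : ℕ} (hx : x < p.n)
    (hD : DOk I p d (s * nph p.JF p.JN))
    (hZ : ask I (s * nph p.JF p.JN + phZ1 p.JF) x = if Z1 p S d o x then 1 else 0)
    (hM : fMaj I (s * nph p.JF p.JN + phZZ p.JF) x = lossR p S d o o' x) :
    fZZ I (s * nph p.JF p.JN + phZZ p.JF) x =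
      (if Zst p S d o o' x then 1 else 0) + 2 * (if Zs p S d o o' x then 1 else 0) := by
  have hb : bs I (s * nph p.JF p.JN + phZZ p.JF) = s * nph p.JF p.JN :=
    h.bs s _ (by unfold phZZ nph; omega)
  unfold fZZ
  rw [hb, h.JF, hM, h.Th, h.q, h.K, hD.k x hx]
  have e1 : ask I (s * nph p.JF p.JN + (6 + p.JF)) x = if Z1 p S d o x then 1 else 0 := hZ
  rw [e1]
  have e2 : ((if Z1 p S d o x then 1 else 0) = 1 ∨ 2 * p.Th ≤ lossR p S d o o' x * p.q ^ 7) ↔
      Zst p S d o o' x := by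
    unfold Zst
    by_cases h1 : Z1 p S d o x <;> simp [h1]
  by_cases hz : Zst p S d o o' x
  · have hs : Zs p S d o o' x := Or.inl hz
    rw [if_pos (e2.2 hz), if_pos hz, if_pos hs]
  · rw [if_neg (fun h1 => hz (e2.1 h1)), if_neg hz]
    by_cases hk : p.K ≤ d.k x
    · have hs : Zs p S d o o' x := Or.inr hk
      rw [if_pos hk, if_pos hs]
    · have hs : ¬ Zs p S d o o' x := fun h1 => h1.elim hz hk
      rw [if_neg hk, if_neg hs]

/-- The ZZ level answers correctly. -/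
def ZOk (I : Inp) (p : Par) (S : Sem) (d : SD) (o o' L : ℕ) : Prop :=
  ∀ x < p.n, (2 ≤ ask I L x ↔ Zs p S d o o' x) ∧ (ask I L x % 2 = 1 ↔ Zst p S d o o' x)

open Classical in
theorem ZOk.of (L : ℕ) (h : ∀ x < p.n, ask I L x =
    (if Zst p S d o o' x then 1 else 0) + 2 * (if Zs p S d o o' x then 1 else 0)) :
    ZOk I p S d o o' L := by
  intro x hx
  rw [h x hx]
  by_cases h1 : Zst p S d o o' x <;> by_cases h2 : Zs p S d o o' x <;> simp [h1, h2]

end Vale.Agent.P313.TS.F3
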