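import Vale.Agent.P313.H285.Spec

/-!
The phases H, G, Phi and DATA compute the canonical values.
-/

namespace Vale.Agent.P313.TS.F3

open Finset TS BP
open Vale.Agent.P313.CT (ask stat bnd)

variable {I : Inp} {p : Par} {Om : ℕ} {S : Sem} {d : SD} {o o' o'' : ℕ}

/-! ### Integer arithmetic with offsets -/

/-- `(X + c Th - Y) / Th` in `ℕ` codes the rounded quotient of `X - Y`. -/
theorem div_off (X Y c Th : ℕ) (hTh : 0 < Th) :
    (X + c * Th - Y) / Th = (((X : ℤ) - Y) / (Th : ℤ) + c).toNat := by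
  have h1 : ((X : ℤ) - Y) / (Th : ℤ) + c = ((X : ℤ) - Y + c * Th) / (Th : ℤ) := by
    rw [Int.add_mul_ediv_right _ _ (by positivity)]
  rw [h1]
  rcases le_total Y (X + c * Th) with h | h
  · have h2 : ((X : ℤ) - Y + c * Th) = ((X + c * Th - Y : ℕ) : ℤ) := by
      rw [Nat.cast_sub h]; push_cast; ring
    rw [h2, ← Int.natCast_ediv, Int.toNat_natCast]
  · rw [Nat.sub_eq_zero_of_le h, Nat.zero_div]
    symm
    rw [Int.toNat_eq_zero]
    have h3 : ((X : ℤ) - Y + c * Th) ≤ 0 := by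
      have : ((X + c * Th : ℕ) : ℤ) ≤ Y := by exact_mod_cast h
      push_cast at this
      linarith
    have hT : (0 : ℤ) < Th := by exact_mod_cast hTh
    have h4 := Int.ediv_mul_le ((X : ℤ) - Y + c * Th) hT.ne'
    by_contra h5
    rw [not_le] at h5
    nlinarith

/-- `Lm` is the difference of the two parts. -/
theorem Lm_eq (h : SDOk I p Om) (h2 : 2 ^ p.rk ≤ bnd I) {L s ph v x : ℕ}
    (hL : L = s * nph p.JF p.JN + ph) (hph : ph < nph p.JF p.JN)
    (hD : DOk I p d (s * nph p.JF p.JN))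
    (hZ : ZOk I p S d o o' (s * nph p.JF p.JN + phZZ p.JF)) (hv : v < p.n) (hx : x < p.n) :
    Lm p S d o o' v x = (fLp I v x : ℤ) - (fLn I L v x : ℤ) := by
  have hb : bs I L = s * nph p.JF p.JN := by rw [hL]; exact h.bs s _ hph
  unfold Lm fLp fLn isZs
  rw [hb, h.JF, h.Th, h.rk, h.Th1, pw_eq h2, hD.A v hv x hx]
  have e : (2 ≤ ask I (s * nph p.JF p.JN + (10 + p.JF)) x) ↔ Zs p S d o o' x := (hZ x hx).1
  have h3 : ((2 ^ p.rk - 1 : ℕ) : ℤ) = (2 : ℤ) ^ p.rk - 1 := by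
    have : 1 ≤ 2 ^ p.rk := Nat.one_le_two_pow
    push_cast [this]
    ring
  by_cases hz : Zs p S d o o' x
  · rw [if_pos hz, if_pos (e.2 hz)]
    split_ifs <;> simp
  · rw [if_neg hz, if_neg (fun h1 => hz (e.1 h1))]
    rw [Nat.cast_mul, Nat.cast_mul, h3]
    split_ifs <;> simp

/-! ### G -/

theorem fG_zero (h : SDOk I p Om) {s v x : ℕ}
    (hP : ask I (s * nph p.JF p.JN + phPr2 p.JF p.JF) (Nat.pair 0 (Nat.pair v x)) =
      prodM p (fac2 p S d o o' o'') p.JF 0 v x) :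
    fG I (s * nph p.JF p.JN + phG p.JF 0) (Nat.pair v x) =
      (Gz p S d o o' o'' 0 v x + Om).toNat := by
  unfold fG
  rw [h.mod s _ (by unfold phG nph; omega), h.JF, if_pos (by unfold phG; omega)]
  simp only [u1_pair, u2_pair, fG0, h.Om, Gz]
  have e : s * nph p.JF p.JN + phG p.JF 0 - 1 = s * nph p.JF p.JN + phPr2 p.JF p.JF := by
    unfold phG phPr2; omega
  rw [e, hP, ← Nat.cast_add, Int.toNat_natCast]

theorem fHH_eq (h : SDOk I p Om) (h2 : 2 ^ p.rk ≤ bnd I) (hTh : 0 < p.Th) {s j v y : ℕ}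
    (hj : j < p.JN) (hy : y < p.n)
    (hD : DOk I p d (s * nph p.JF p.JN))
    (hZ : ZOk I p S d o o' (s * nph p.JF p.JN + phZZ p.JF))
    (hG : ∀ u < p.n, ask I (s * nph p.JF p.JN + phG p.JF j) (Nat.pair v u) =
      (Gz p S d o o' o'' j v u + Om).toNat)
    (hGb : ∀ u < p.n, -(Om : ℤ) ≤ Gz p S d o o' o'' j v u)
    (hHb : Hn p (Lm p S d o o') (Gz p S d o o' o'' j) v y ≤ Om) :
    fHH I (s * nph p.JF p.JN + phH p.JF j) (Nat.pair v y) =
      (Hn p (Lm p S d o o') (Gz p S d o o' o'' j) v y + Om).toNat := by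
  have e : s * nph p.JF p.JN + phH p.JF j - 1 = s * nph p.JF p.JN + phG p.JF j := by
    unfold phG phH; omega
  have hph : phH p.JF j < nph p.JF p.JN := by unfold phH nph; omega
  unfold fHH fHn
  simp only [u1_pair, u2_pair]
  rw [e, h.n, h.Th, h.Om]
  set L := s * nph p.JF p.JN + phH p.JF j with hLdef
  set X := ∑ u ∈ range p.n, (ask I (s * nph p.JF p.JN + phG p.JF j) (Nat.pair v u) * fLp I u y +
    Om * fLn I L u y) with hX
  set Y := ∑ u ∈ range p.n, (ask I (s * nph p.JF p.JN + phG p.JF j) (Nat.pair v u) * fLn I L u y +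
    Om * fLp I u y) with hY
  have hXY : (X : ℤ) - Y = ∑ u ∈ range p.n, Gz p S d o o' o'' j v u * Lm p S d o o' u y := by
    rw [hX, hY]
    push_cast
    rw [← Finset.sum_sub_distrib]
    refine Finset.sum_congr rfl fun u hu => ?_
    rw [mem_range] at hu
    rw [Lm_eq h h2 hLdef hph hD hZ hu hy]
    have h3 : (ask I (s * nph p.JF p.JN + phG p.JF j) (Nat.pair v u) : ℤ) =
        Gz p S d o o' o'' j v u + Om := by
      rw [hG u hu, Int.toNat_of_nonneg (by linarith [hGb u hu])]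
    rw [h3]
    ring
  rw [div_off X Y Om p.Th hTh, hXY]
  unfold Hn at hHb ⊢
  set T := (∑ u ∈ range p.n, Gz p S d o o' o'' j v u * Lm p S d o o' u y) / (p.Th : ℤ) with hT
  have h4 : 0 ≤ T + Om := by
    have : (0 : ℤ) ≤ if v = y then 2 * (p.Th : ℤ) else 0 := by split_ifs <;> positivity
    linarith
  have h5 : ((T + Om).toNat : ℤ) = T + Om := Int.toNat_of_nonneg h4
  have h6 : ((if v = y then 2 * p.Th else 0 : ℕ) : ℤ) = if v = y then 2 * (p.Th : ℤ) else 0 := by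
    split_ifs <;> simp
  rw [← h6]
  omega

theorem fG_succ (h : SDOk I p Om) (hTh : 0 < p.Th) {s j v x : ℕ}
    (hj : j < p.JN)
    (hH : ∀ y < p.n, ask I (s * nph p.JF p.JN + phH p.JF j) (Nat.pair v y) =
      (Hn p (Lm p S d o o') (Gz p S d o o' o'' j) v y + Om).toNat)
    (hHb : ∀ y < p.n, -(Om : ℤ) ≤ Hn p (Lm p S d o o') (Gz p S d o o' o'' j) v y)
    (hG : ∀ y < p.n, ask I (s * nph p.JF p.JN + phG p.JF j) (Nat.pair y x) =
      (Gz p S d o o' o'' j y x + Om).toNat)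
    (hGb : ∀ y < p.n, -(Om : ℤ) ≤ Gz p S d o o' o'' j y x) :
    fG I (s * nph p.JF p.JN + phG p.JF (j + 1)) (Nat.pair v x) =
      (Gz p S d o o' o'' (j + 1) v x + Om).toNat := by
  have e1 : s * nph p.JF p.JN + phG p.JF (j + 1) - 1 = s * nph p.JF p.JN + phH p.JF j := by
    unfold phG phH; omega
  have e2 : s * nph p.JF p.JN + phG p.JF (j + 1) - 2 = s * nph p.JF p.JN + phG p.JF j := by
    unfold phG; omega
  unfold fG
  rw [h.mod s _ (by unfold phG nph; omega), h.JF, if_neg (by unfold phG; omega)]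
  simp only [u1_pair, u2_pair, fG1]
  rw [e1, e2, h.n, h.Th, h.Om, div_off _ _ Om p.Th hTh]
  have e3 : ((∑ y ∈ range p.n, (ask I (s * nph p.JF p.JN + phH p.JF j) (Nat.pair v y) *
      ask I (s * nph p.JF p.JN + phG p.JF j) (Nat.pair y x) + Om * Om) : ℕ) : ℤ) -
      ((∑ y ∈ range p.n, Om * (ask I (s * nph p.JF p.JN + phH p.JF j) (Nat.pair v y) +
        ask I (s * nph p.JF p.JN + phG p.JF j) (Nat.pair y x)) : ℕ) : ℤ) =
      ∑ y ∈ range p.n, Hn p (Lm p S d o o') (Gz p S d o o' o'' j) v y *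
        Gz p S d o o' o'' j y x := by
    push_cast
    rw [← Finset.sum_sub_distrib]
    refine Finset.sum_congr rfl fun y hy => ?_
    rw [mem_range] at hy
    have h3 : (ask I (s * nph p.JF p.JN + phH p.JF j) (Nat.pair v y) : ℤ) =
        Hn p (Lm p S d o o') (Gz p S d o o' o'' j) v y + Om := by
      rw [hH y hy, Int.toNat_of_nonneg (by linarith [hHb y hy])]
    have h4 : (ask I (s * nph p.JF p.JN + phG p.JF j) (Nat.pair y x) : ℤ) =
        Gz p S d o o' o'' j y x + Om := by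
      rw [hG y hy, Int.toNat_of_nonneg (by linarith [hGb y hy])]
    rw [h3, h4]
    ring
  rw [e3]
  rfl

/-! ### Phi -/

theorem fPhi_eq (h : SDOk I p Om) (h2 : 2 ^ p.rk ≤ bnd I) (hTh : 0 < p.Th) {s v x : ℕ}
    (hx : x < p.n)
    (hD : DOk I p d (s * nph p.JF p.JN))
    (hZ : ZOk I p S d o o' (s * nph p.JF p.JN + phZZ p.JF))
    (hG : ∀ y < p.n, ask I (s * nph p.JF p.JN + phG p.JF p.JN) (Nat.pair v y) =
      (Gz p S d o o' o'' p.JN v y + Om).toNat)
    (hGb : ∀ y < p.n, -(Om : ℤ) ≤ Gz p S d o o' o'' p.JN v y) :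
    fPhi I (s * nph p.JF p.JN + phPhi p.JF p.JN) (Nat.pair v x) =
      (Phi p S d o o' o'' v x - 1).toNat := by
  have e1 : s * nph p.JF p.JN + phPhi p.JF p.JN - 1 = s * nph p.JF p.JN + phG p.JF p.JN := by
    unfold phG phPhi; omega
  have hb : bs I (s * nph p.JF p.JN + phPhi p.JF p.JN) = s * nph p.JF p.JN :=
    h.bs s _ (by unfold phPhi nph; omega)
  have e : (2 ≤ isZs I (s * nph p.JF p.JN + phPhi p.JF p.JN) x) ↔ Zs p S d o o' x := by
    unfold isZs
    rw [hb, h.JF]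
    exact (hZ x hx).1
  unfold fPhi fPhi'
  simp only [u1_pair, u2_pair]
  rw [e1, hb, h.n, h.Th, h.Om, h.rk, pw_eq h2]
  set w : ℕ := if 2 ≤ isZs I (s * nph p.JF p.JN + phPhi p.JF p.JN) x then 2 ^ p.rk else 1 with hw
  set X := ∑ y ∈ range p.n, ask I (s * nph p.JF p.JN + phG p.JF p.JN) (Nat.pair v y) *
    ask I (s * nph p.JF p.JN) (Nat.pair 0 (Nat.pair y x)) * w with hX
  set Y := ∑ y ∈ range p.n, Om * ask I (s * nph p.JF p.JN) (Nat.pair 0 (Nat.pair y x)) * w with hY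
  have hXY : (X : ℤ) - Y = ∑ y ∈ range p.n, Gz p S d o o' o'' p.JN v y * (d.A y x : ℤ) * w := by
    rw [hX, hY]
    push_cast
    rw [← Finset.sum_sub_distrib]
    refine Finset.sum_congr rfl fun y hy => ?_
    rw [mem_range] at hy
    have h3 : (ask I (s * nph p.JF p.JN + phG p.JF p.JN) (Nat.pair v y) : ℤ) =
        Gz p S d o o' o'' p.JN v y + Om := by
      rw [hG y hy, Int.toNat_of_nonneg (by linarith [hGb y hy])]
    rw [h3, hD.A y hy x hx]
    ring
  have hpos : 0 < p.Th * 2 ^ p.rk := by positivity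
  have h5 := div_off X Y 0 (p.Th * 2 ^ p.rk) hpos
  rw [Nat.zero_mul, Nat.add_zero] at h5
  rw [h5, hXY]
  have h6 : Phi p S d o o' o'' v x = (∑ y ∈ range p.n, Gz p S d o o' o'' p.JN v y *
      (d.A y x : ℤ) * w) / ((p.Th * 2 ^ p.rk : ℕ) : ℤ) := by
    unfold Phi
    rw [hw]
    push_cast
    by_cases hz : Zs p S d o o' x
    · simp only [if_pos hz, if_pos (e.2 hz)]
    · simp only [if_neg hz, if_neg (fun h1 => hz (e.1 h1))]
  rw [h6]
  omega

/-! ### DATA -/

theorem fData_zero {cs : Inp → ℕ → ℕ → ℕ} {cs' : ℕ → Bool → ℕ} (h : SDOk I p Om)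
    (hq : p.q ^ p.b ≤ bnd I) 
    (hcs : ∀ v, v + 1 < p.n → cs I v 0 = cs' v false ∧ cs I v 1 = cs' v true) (v x : ℕ) :
    fData cs I 0 (Nat.pair 0 (Nat.pair v x)) = (init p cs').A v x ∧
    fData cs I 0 (Nat.pair 1 (Nat.pair v x)) = (init p cs').c v ∧
    fData cs I 0 (Nat.pair 2 (Nat.pair v x)) = (init p cs').k v := by
  unfold fData
  simp only [u1_pair, u2_pair, fInit, init, h.n, h.q, h.b, h.K, pw_eq hq]
  refine ⟨?_, rfl, rfl⟩
  by_cases hv : v + 1 < p.n
  · simp only [if_pos hv, (hcs v hv).1, (hcs v hv).2, if_true]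
  · simp only [if_neg hv, if_true]

theorem fData_succ {cs : Inp → ℕ → ℕ → ℕ} (h : SDOk I p Om)
    (hq : p.q ^ p.b ≤ bnd I) {s : ℕ} (hD : DOk I p d (s * nph p.JF p.JN))
    (hZ : ZOk I p S d o o' (s * nph p.JF p.JN + phZZ p.JF)) {v x : ℕ} (hv : v < p.n)
    (hx : x < p.n)
    (hP : ∀ y < p.n, ask I (s * nph p.JF p.JN + phPhi p.JF p.JN) (Nat.pair v y) =
      (Phi p S d o o' o'' v y - 1).toNat) :
    fData cs I ((s + 1) * nph p.JF p.JN) (Nat.pair 0 (Nat.pair v x)) =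
      (next p S d o o' o'').A v x ∧
    fData cs I ((s + 1) * nph p.JF p.JN) (Nat.pair 1 (Nat.pair v x)) =
      (next p S d o o' o'').c v ∧
    fData cs I ((s + 1) * nph p.JF p.JN) (Nat.pair 2 (Nat.pair v x)) =
      (next p S d o o' o'').k v := by
  have hm : 0 < nph p.JF p.JN := by unfold nph; omega
  have e0 : (s + 1) * nph p.JF p.JN = s * nph p.JF p.JN + nph p.JF p.JN := by ring
  have hl : (s + 1) * nph p.JF p.JN ≠ 0 := by positivity
  have e1 : (s + 1) * nph p.JF p.JN - 1 = s * nph p.JF p.JN + phPhi p.JF p.JN := by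
    rw [e0]; unfold phPhi nph; omega
  have e2 : (s + 1) * nph p.JF p.JN - nph p.JF p.JN = s * nph p.JF p.JN := by
    rw [e0]; omega
  unfold fData
  simp only [if_neg hl, u1_pair, u2_pair, fNext, e1, h.n, h.q, h.b, h.K, h.m, h.JF, pw_eq hq, e2]
  have hz1 : (2 ≤ ask I (s * nph p.JF p.JN + (10 + p.JF)) v) ↔ Zs p S d o o' v := (hZ v hv).1
  have hz2 : (ask I (s * nph p.JF p.JN + (10 + p.JF)) v % 2 = 1) ↔ Zst p S d o o' v :=
    (hZ v hv).2
  refine ⟨?_, ?_, ?_⟩
  · simp only [if_true, next]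
    split_ifs with h1
    · congr 1
      refine Finset.sum_congr rfl fun y hy => ?_
      rw [mem_range] at hy
      exact hP y (by omega)
    · exact hP x hx
  · simp only [next, hD.c v hv, hD.k v hv]
    simp only [one_ne_zero, if_false, if_true]
    congr 1
    classical
    exact if_congr (by rw [hz2]) rfl rfl
  · simp only [next, hD.k v hv]
    have : (2 : ℕ) ≠ 0 := by norm_num
    simp only [this, if_false, show (2 : ℕ) ≠ 1 by norm_num]
    congr 1
    classical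
    exact if_congr hz1 rfl rfl

end Vale.Agent.P313.TS.F3
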